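import Mathlib

/-
Facts about standard Gaussian vectors: splitting off one coordinate, a small ball estimate,
a chi square tail and a lower bound for the mass of small boxes.
-/

namespace Vale.Agent.P309

open MeasureTheory ProbabilityTheory Complex Metric
open scoped RealInnerProductSpace ENNReal NNReal

variable {E : Type*} [NormedAddCommGroup E] [InnerProductSpace ℝ E] [FiniteDimensional ℝ E]
  [MeasurableSpace E] [BorelSpace E]

/-- replace the coordinate along `e` -/
noncomputable def swapCoord (e : E) (p : ℝ × E) : E := p.2 + (p.1 - ⟪e, p.2⟫) • e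

lemma measurable_swapCoord (e : E) : Measurable (swapCoord e) := by
  unfold swapCoord; fun_prop

lemma swap_map {e : E} (he : ‖e‖ = 1) :
    ((gaussianReal 0 1).prod (stdGaussian E)).map (swapCoord e) = stdGaussian E := by
  apply Measure.ext_of_charFun
  ext t
  have hs : ∀ p : ℝ × E, ⟪swapCoord e p, t⟫ = ⟪e, t⟫ * p.1 + ⟪p.2, t - ⟪e, t⟫ • e⟫ := by
    intro p
    simp only [swapCoord, inner_add_left, inner_sub_right, real_inner_smul_left,
      real_inner_smul_right, real_inner_comm e p.2]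
    ring
  have hn : ‖t - ⟪e, t⟫ • e‖ ^ 2 = ‖t‖ ^ 2 - ⟪e, t⟫ ^ 2 := by
    rw [norm_sub_sq_real, real_inner_smul_right, norm_smul, Real.norm_eq_abs, he,
      real_inner_comm t e]
    rw [mul_one, sq_abs]; ring
  calc charFun (((gaussianReal 0 1).prod (stdGaussian E)).map (swapCoord e)) t
      = ∫ p, Complex.exp (⟪swapCoord e p, t⟫ * I) ∂((gaussianReal 0 1).prod (stdGaussian E)) := by
        rw [charFun_apply, integral_map (measurable_swapCoord e).aemeasurable]
        exact (Continuous.aestronglyMeasurable (by fun_prop))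
    _ = ∫ p : ℝ × E, Complex.exp ((⟪e, t⟫ : ℝ) * (p.1 : ℝ) * I)
          * Complex.exp ((⟪p.2, t - ⟪e, t⟫ • e⟫ : ℝ) * I)
          ∂((gaussianReal 0 1).prod (stdGaussian E)) := by
        refine integral_congr_ae (Filter.Eventually.of_forall fun p => ?_)
        dsimp only
        rw [← Complex.exp_add, hs p]
        push_cast; ring_nf
    _ = charFun (gaussianReal 0 1) ⟪e, t⟫ * charFun (stdGaussian E) (t - ⟪e, t⟫ • e) := by
        rw [integral_prod_mul (fun g : ℝ => Complex.exp ((⟪e, t⟫ : ℝ) * g * I))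
          (fun x : E => Complex.exp ((⟪x, t - ⟪e, t⟫ • e⟫ : ℝ) * I)), charFun_apply_real,
          charFun_apply]
    _ = _ := by
        rw [charFun_gaussianReal, charFun_stdGaussian, charFun_stdGaussian, ← Complex.exp_add]
        congr 1
        have hn' := congrArg (fun r : ℝ => (r : ℂ)) hn
        push_cast at hn' ⊢
        linear_combination (-1 / 2 : ℂ) * hn'

lemma gaussian_interval (c r : ℝ) :
    gaussianReal 0 1 {g : ℝ | |g - c| ≤ r} ≤ ENNReal.ofReal r := by
  rw [gaussianReal_apply 0 one_ne_zero]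
  calc ∫⁻ x in {g : ℝ | |g - c| ≤ r}, gaussianPDF 0 1 x
      ≤ ∫⁻ _x in {g : ℝ | |g - c| ≤ r}, ENNReal.ofReal (1 / 2) := by
        refine lintegral_mono fun x => ENNReal.ofReal_le_ofReal ?_
        have h0 : 0 < Real.sqrt (2 * Real.pi * 1) := by positivity
        have h2 : 2 ≤ Real.sqrt (2 * Real.pi * 1) := by
          rw [Real.le_sqrt (by norm_num) (by positivity)]
          linarith [Real.pi_gt_three]
        simp only [gaussianPDFReal, NNReal.coe_one]
        calc (Real.sqrt (2 * Real.pi * 1))⁻¹ * Real.exp (-(x - 0) ^ 2 / (2 * 1))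
            ≤ (Real.sqrt (2 * Real.pi * 1))⁻¹ * 1 := by
              gcongr
              exact Real.exp_le_one_iff.2 (by nlinarith [sq_nonneg x])
          _ ≤ 1 / 2 := by rw [mul_one, one_div]; exact inv_anti₀ (by norm_num) h2
    _ = ENNReal.ofReal (1 / 2) * volume (Set.Icc (c - r) (c + r)) := by
        rw [setLIntegral_const]
        congr 2
        ext x
        simp only [Set.mem_ofPred_eq, Set.mem_Icc, abs_le]
        constructor <;> rintro ⟨a, b⟩ <;> constructor <;> linarith
    _ = ENNReal.ofReal r := by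
        rw [Real.volume_Icc, ← ENNReal.ofReal_mul (by norm_num)]
        congr 1; ring

/-- one more vector in the small ball estimate -/
lemma smallball_step {e v : E} (he : ‖e‖ = 1) (hc : 0 < ⟪e, v⟫) {G : Set E} (hG : MeasurableSet G)
    (hinv : ∀ g x, swapCoord e (g, x) ∈ G ↔ x ∈ G) (δ : ℝ) :
    stdGaussian E (G ∩ {x | |⟪x, v⟫| ≤ δ})
      ≤ ENNReal.ofReal (δ / ⟪e, v⟫) * stdGaussian E G := by
  have hm : MeasurableSet (G ∩ {x : E | |⟪x, v⟫| ≤ δ}) :=
    hG.inter (measurableSet_le (by fun_prop) measurable_const)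
  conv_lhs => rw [← swap_map he, Measure.map_apply (measurable_swapCoord e) hm,
    Measure.prod_apply_symm (measurable_swapCoord e hm)]
  rw [← lintegral_indicator_const hG]
  refine lintegral_mono fun x => ?_
  by_cases hx : x ∈ G
  · rw [Set.indicator_of_mem hx]
    refine le_trans (measure_mono ?_)
      (gaussian_interval (⟪e, x⟫ - ⟪x, v⟫ / ⟪e, v⟫) (δ / ⟪e, v⟫))
    intro g hg
    have h := hg.2
    simp only [Set.mem_ofPred_eq, swapCoord, inner_add_left, real_inner_smul_left] at h ⊢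
    rw [le_div_iff₀ hc, ← abs_of_pos hc, ← abs_mul, abs_of_pos hc]
    refine le_of_eq_of_le ?_ h
    congr 1
    field_simp
    ring
  · rw [Set.indicator_of_notMem hx]
    refine le_of_eq ?_
    have : (fun g => (g, x)) ⁻¹' (swapCoord e ⁻¹' (G ∩ {x | |⟪x, v⟫| ≤ δ})) = ∅ := by
      ext g
      simp only [Set.mem_preimage, Set.mem_inter_iff, Set.mem_empty_iff_false, iff_false]
      exact fun h => hx ((hinv g x).1 h.1)
    rw [this, measure_empty]

lemma gauss_sq_mgf :
    ∫⁻ g, ENNReal.ofReal (Real.exp (g ^ 2 / 4)) ∂gaussianReal 0 1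
      = ENNReal.ofReal (Real.sqrt 2) := by
  rw [gaussianReal_of_var_ne_zero 0 one_ne_zero, lintegral_withDensity_eq_lintegral_mul _
    (measurable_gaussianPDF 0 1) (by fun_prop)]
  have e : ∀ g : ℝ, gaussianPDF 0 1 g * ENNReal.ofReal (Real.exp (g ^ 2 / 4))
      = ENNReal.ofReal (Real.sqrt 2) * gaussianPDF 0 2 g := by
    intro g
    simp only [gaussianPDF]
    rw [← ENNReal.ofReal_mul (gaussianPDFReal_nonneg _ _ _),
      ← ENNReal.ofReal_mul (Real.sqrt_nonneg 2)]
    congr 1
    simp only [gaussianPDFReal, NNReal.coe_one, NNReal.coe_ofNat, sub_zero, mul_one]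
    have h2 : Real.sqrt (2 * Real.pi * 2) = Real.sqrt (2 * Real.pi) * Real.sqrt 2 :=
      Real.sqrt_mul (by positivity) 2
    rw [h2, mul_assoc, ← Real.exp_add]
    have : -g ^ 2 / 2 + g ^ 2 / 4 = -g ^ 2 / (2 * 2) := by ring
    rw [this]
    field_simp
  simp only [Pi.mul_apply, e]
  rw [lintegral_const_mul _ (measurable_gaussianPDF 0 2), lintegral_gaussianPDF_eq_one 0 (by norm_num),
    mul_one]

lemma inner_sq_mgf {u : E} (hu : ‖u‖ ≤ 1) :
    ∫⁻ x, ENNReal.ofReal (Real.exp (⟪x, u⟫ ^ 2 / 4)) ∂stdGaussian E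
      ≤ ENNReal.ofReal (Real.sqrt 2) := by
  rcases eq_or_ne u 0 with rfl | hu0
  · simp only [inner_zero_right, ne_eq, OfNat.ofNat_ne_zero, not_false_eq_true, zero_pow, zero_div,
      Real.exp_zero, lintegral_const, measure_univ, mul_one]
    exact ENNReal.ofReal_le_ofReal (Real.one_le_sqrt.2 (by norm_num))
  set e : E := ‖u‖⁻¹ • u with he
  have hen : ‖e‖ = 1 := by simp [he, norm_smul, hu0]
  have hm : Measurable fun x : E => ENNReal.ofReal (Real.exp (⟪x, u⟫ ^ 2 / 4)) := by fun_prop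
  conv_lhs => rw [← swap_map hen, lintegral_map hm (measurable_swapCoord e)]
  calc ∫⁻ p, ENNReal.ofReal (Real.exp (⟪swapCoord e p, u⟫ ^ 2 / 4))
        ∂((gaussianReal 0 1).prod (stdGaussian E))
      ≤ ∫⁻ p, ENNReal.ofReal (Real.exp (p.1 ^ 2 / 4))
        ∂((gaussianReal 0 1).prod (stdGaussian E)) := by
        refine lintegral_mono fun p => ENNReal.ofReal_le_ofReal (Real.exp_le_exp.2 ?_)
        have hue : u = ‖u‖ • e := by rw [he, smul_smul, mul_inv_cancel₀ (norm_ne_zero_iff.2 hu0), one_smul]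
        have hee : ⟪e, e⟫ = 1 := by rw [real_inner_self_eq_norm_sq, hen]; norm_num
        have : ⟪swapCoord e p, u⟫ = ‖u‖ * p.1 := by
          conv_lhs => rw [hue]
          simp only [swapCoord, inner_add_left, real_inner_smul_left, real_inner_smul_right, hee,
            real_inner_comm e p.2]
          ring
        rw [this, mul_pow]
        gcongr
        exact mul_le_of_le_one_left (sq_nonneg _) (pow_le_one₀ (norm_nonneg _) hu)
    _ = ∫⁻ g, ENNReal.ofReal (Real.exp (g ^ 2 / 4)) ∂gaussianReal 0 1 := by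
        rw [lintegral_prod _ (by fun_prop)]
        simp
    _ = _ := gauss_sq_mgf
    _ ≤ _ := le_rfl

lemma lintegral_pi_prod {α : Type*} [MeasurableSpace α] (μ : Measure α) [SigmaFinite μ]
    {f : α → ℝ≥0∞} (hf : Measurable f) :
    ∀ k : ℕ, ∫⁻ X, ∏ r, f (X r) ∂Measure.pi (fun _ : Fin k => μ) = (∫⁻ x, f x ∂μ) ^ k := by
  intro k
  induction k with
  | zero => simp [lintegral_unique]
  | succ k ih =>
    have hmp := measurePreserving_piFinSuccAbove (fun _ : Fin (k + 1) => μ) 0
    rw [← hmp.symm.lintegral_comp_emb (MeasurableEquiv.measurableEmbedding _),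
      lintegral_prod _ (by fun_prop)]
    simp only [MeasurableEquiv.piFinSuccAbove_symm_apply, Fin.prod_univ_succ, Fin.insertNth_zero',
      Fin.cons_zero, Fin.cons_succ, Fin.succAbove_zero, Fin.insertNthEquiv_apply]
    have hmeas : Measurable fun X : Fin k → α => ∏ r, f (X r) := by fun_prop
    simp_rw [lintegral_const_mul _ hmeas]
    rw [ih, lintegral_mul_const _ hf, pow_succ']

lemma sqrt_two_exp_le : Real.sqrt 2 * Real.exp (-1) ≤ 3 / 4 := by
  rw [Real.exp_neg, ← div_eq_mul_inv, div_le_iff₀ (Real.exp_pos 1)]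
  have := Real.exp_one_gt_d9
  nlinarith [Real.sqrt_nonneg 2, Real.sq_sqrt (show (0:ℝ) ≤ 2 by norm_num)]

/-- chi square tail for `k` rows -/
lemma chi_tail {k : ℕ} {u : E} (hu : ‖u‖ ≤ 1) :
    Measure.pi (fun _ : Fin k => stdGaussian E)
      {X : Fin k → E | 4 * (k : ℝ) < ∑ r, ⟪X r, u⟫ ^ 2} ≤ ENNReal.ofReal ((3 / 4) ^ k) := by
  have hm : Measurable fun X : Fin k → E =>
      ∏ r, ENNReal.ofReal (Real.exp (⟪X r, u⟫ ^ 2 / 4) * Real.exp (-1)) := by fun_prop
  calc Measure.pi (fun _ : Fin k => stdGaussian E) {X : Fin k → E | 4 * (k : ℝ) < ∑ r, ⟪X r, u⟫ ^ 2}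
      ≤ ∫⁻ X, ∏ r, ENNReal.ofReal (Real.exp (⟪X r, u⟫ ^ 2 / 4) * Real.exp (-1))
          ∂Measure.pi (fun _ : Fin k => stdGaussian E) := by
        rw [← lintegral_indicator_one (measurableSet_lt measurable_const (by fun_prop))]
        refine lintegral_mono fun X => ?_
        rw [Set.indicator_apply]
        split_ifs with hY
        swap
        · exact zero_le
        rw [← ENNReal.ofReal_prod_of_nonneg (fun r _ => by positivity), Pi.one_apply,
          ← ENNReal.ofReal_one]
        refine ENNReal.ofReal_le_ofReal ?_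
        rw [Finset.prod_mul_distrib, ← Real.exp_sum, ← Finset.sum_div, Finset.prod_const,
          Finset.card_univ, Fintype.card_fin, ← Real.exp_nat_mul, ← Real.exp_add]
        have := Set.mem_ofPred.1 hY
        exact Real.one_le_exp (by linarith)
    _ = ∏ _r : Fin k, ∫⁻ x, ENNReal.ofReal (Real.exp (⟪x, u⟫ ^ 2 / 4) * Real.exp (-1))
          ∂stdGaussian E := by
        rw [lintegral_pi_prod (stdGaussian E)
          (f := fun x => ENNReal.ofReal (Real.exp (⟪x, u⟫ ^ 2 / 4) * Real.exp (-1))) (by fun_prop),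
          Finset.prod_const, Finset.card_univ, Fintype.card_fin]
    _ ≤ ∏ _r : Fin k, ENNReal.ofReal (3 / 4) := by
        refine Finset.prod_le_prod' fun r _ => ?_
        simp only [fun x : E => ENNReal.ofReal_mul (q := Real.exp (-1))
          (Real.exp_pos (⟪x, u⟫ ^ 2 / 4)).le]
        rw [lintegral_mul_const _ (by fun_prop)]
        calc _ ≤ ENNReal.ofReal (Real.sqrt 2) * ENNReal.ofReal (Real.exp (-1)) := by
              gcongr; exact inner_sq_mgf hu
          _ ≤ _ := by
              rw [← ENNReal.ofReal_mul (Real.sqrt_nonneg 2)]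
              exact ENNReal.ofReal_le_ofReal sqrt_two_exp_le
    _ = _ := by rw [Finset.prod_const, Finset.card_univ, Fintype.card_fin, ENNReal.ofReal_pow (by norm_num)]

/-- standard Gaussian measure on `Fin k → ℝ` -/
noncomputable def gaussPi (k : ℕ) : Measure (Fin k → ℝ) :=
  Measure.pi fun _ : Fin k => gaussianReal 0 1

instance (k : ℕ) : IsProbabilityMeasure (gaussPi k) :=
  inferInstanceAs (IsProbabilityMeasure (Measure.pi fun _ : Fin k => gaussianReal 0 1))

/-- box index of a point at scale `2^{-n}` -/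
noncomputable def boxIndex {k : ℕ} (n : ℕ) (w : Fin k → ℝ) : Fin k → ℤ :=
  fun i => ⌊(2:ℝ) ^ n * w i⌋

lemma measurable_boxIndex {k : ℕ} (n : ℕ) : Measurable (boxIndex (k := k) n) := by
  unfold boxIndex; fun_prop

/-- dyadic boxes near the bulk have mass at least `(64 · 2^n)^{-k}` -/
lemma box_mass {k : ℕ} (n : ℕ) (hn : 3 ≤ n) {w : Fin k → ℝ}
    (hw : ∑ i, w i ^ 2 ≤ 4 * (k : ℝ)) :
    ENNReal.ofReal (1 / (64 * 2 ^ n)) ^ k
      ≤ gaussPi k (boxIndex n ⁻¹' {boxIndex n w}) := by
  set h : ℝ := 1 / 2 ^ n with hh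
  have hh0 : 0 < h := by positivity
  have hh8 : h ≤ 1 / 8 := by
    rw [hh]; gcongr
    calc (8:ℝ) = 2 ^ 3 := by norm_num
      _ ≤ _ := pow_le_pow_right₀ (by norm_num) hn
  set lo : Fin k → ℝ := fun i => (⌊(2:ℝ) ^ n * w i⌋ : ℝ) * h with hlo
  have hset : boxIndex n ⁻¹' {boxIndex n w} = Set.univ.pi fun i => Set.Ico (lo i) (lo i + h) := by
    ext x
    simp only [Set.mem_preimage, Set.mem_singleton_iff, Set.mem_univ_pi, Set.mem_Ico, funext_iff,
      boxIndex, hlo]
    refine forall_congr' fun i => ?_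
    rw [Int.floor_eq_iff, hh]
    have h2 : (0:ℝ) < 2 ^ n := by positivity
    constructor <;> rintro ⟨a, b⟩ <;> constructor
    · rw [mul_one_div, div_le_iff₀ h2]; linarith
    · rw [mul_one_div, ← add_div, lt_div_iff₀ h2]; linarith
    · rw [mul_one_div, div_le_iff₀ h2] at a; linarith
    · rw [mul_one_div, ← add_div, lt_div_iff₀ h2] at b; linarith
  have hlow : ∀ i, lo i ≤ w i ∧ w i ≤ lo i + h := by
    intro i
    have : w ∈ boxIndex n ⁻¹' {boxIndex n w} := rfl
    rw [hset] at this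
    exact ⟨((this i trivial).1), (this i trivial).2.le⟩
  rw [hset, gaussPi, Measure.pi_pi]
  have hone : ∀ i, ENNReal.ofReal (h * ((Real.sqrt (2 * Real.pi * 1))⁻¹
      * Real.exp (-(5 / 4 * w i ^ 2 + 5 * h ^ 2) / 2)))
      ≤ gaussianReal 0 1 (Set.Ico (lo i) (lo i + h)) := by
    intro i
    rw [gaussianReal_apply 0 one_ne_zero, ENNReal.ofReal_mul hh0.le, mul_comm]
    calc ENNReal.ofReal ((Real.sqrt (2 * Real.pi * 1))⁻¹
          * Real.exp (-(5 / 4 * w i ^ 2 + 5 * h ^ 2) / 2)) * ENNReal.ofReal h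
        = ∫⁻ _x in Set.Ico (lo i) (lo i + h), ENNReal.ofReal ((Real.sqrt (2 * Real.pi * 1))⁻¹
          * Real.exp (-(5 / 4 * w i ^ 2 + 5 * h ^ 2) / 2)) := by
          rw [setLIntegral_const, Real.volume_Ico, add_sub_cancel_left]
      _ ≤ _ := by
          refine setLIntegral_mono (measurable_gaussianPDF 0 1) fun x hx => ?_
          refine ENNReal.ofReal_le_ofReal ?_
          simp only [gaussianPDFReal, NNReal.coe_one, sub_zero, mul_one]
          gcongr
          have h1 : (x - w i) ^ 2 ≤ h ^ 2 := by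
            rw [sq_le_sq, abs_of_pos hh0, abs_le]
            constructor <;> linarith [(hlow i).1, (hlow i).2, hx.1, hx.2]
          nlinarith [sq_nonneg ((x - w i) * 2 - w i / 2)]
  refine le_trans ?_ (Finset.prod_le_prod' fun i _ => hone i)
  rw [← ENNReal.ofReal_prod_of_nonneg (fun i _ => by positivity),
    ← ENNReal.ofReal_pow (by positivity)]
  refine ENNReal.ofReal_le_ofReal ?_
  rw [Finset.prod_mul_distrib, Finset.prod_mul_distrib, ← Real.exp_sum, Finset.prod_const,
    Finset.prod_const, Finset.card_univ, Fintype.card_fin]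
  have hexp : Real.exp (-3) ^ k ≤ Real.exp (∑ i, -(5 / 4 * w i ^ 2 + 5 * h ^ 2) / 2) := by
    rw [← Real.exp_nat_mul]
    refine Real.exp_le_exp.2 ?_
    rw [← Finset.sum_div, Finset.sum_neg_distrib, Finset.sum_add_distrib, ← Finset.mul_sum,
      Finset.sum_const, Finset.card_univ, Fintype.card_fin, nsmul_eq_mul]
    have : h ^ 2 ≤ 1 / 64 := by nlinarith
    nlinarith [Nat.cast_nonneg (α := ℝ) k]
  have h64 : (1:ℝ) / 64 ≤ (Real.sqrt (2 * Real.pi * 1))⁻¹ * Real.exp (-3) := by
    rw [Real.exp_neg, ← mul_inv, one_div]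
    refine inv_anti₀ (by positivity) ?_
    have h1 : Real.sqrt (2 * Real.pi * 1) ≤ 2.6 := by
      rw [Real.sqrt_le_left (by norm_num)]
      linarith [Real.pi_lt_d2]
    have h2 : Real.exp 3 ≤ 20.2 := by
      rw [show (3:ℝ) = ((3:ℕ):ℝ) * 1 by norm_num, Real.exp_nat_mul]
      calc Real.exp 1 ^ 3 ≤ (2.7182818286:ℝ) ^ 3 := by
            gcongr; exact Real.exp_one_lt_d9.le
        _ ≤ _ := by norm_num
    calc _ ≤ (2.6:ℝ) * 20.2 := mul_le_mul h1 h2 (Real.exp_pos _).le (by norm_num)
      _ ≤ _ := by norm_num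
  calc (1 / (64 * 2 ^ n) : ℝ) ^ k = h ^ k * (1 / 64) ^ k := by
        rw [← mul_pow]; congr 1; rw [hh]; field_simp
    _ ≤ h ^ k * ((Real.sqrt (2 * Real.pi * 1))⁻¹ * Real.exp (-3)) ^ k := by gcongr
    _ ≤ _ := by rw [mul_pow]; gcongr

end Vale.Agent.P309
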