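import Mathlib
import Vale.Agent.P309.Gauss

/-
Distance to the span of previous vectors: small ball product bound and moment bound.
-/

namespace Vale.Agent.P309

open MeasureTheory ProbabilityTheory Metric
open scoped RealInnerProductSpace ENNReal NNReal

variable {E : Type*} [NormedAddCommGroup E] [InnerProductSpace ℝ E] [FiniteDimensional ℝ E]
  [MeasurableSpace E] [BorelSpace E]

/-- distance from `w` to the span of `prev` (as an infimum over rational combinations) -/
noncomputable def gap {i : ℕ} (w : E) (prev : Fin i → E) : ℝ≥0∞ :=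
  ⨅ q : Fin i → ℚ, ‖w - ∑ j, (q j : ℝ) • prev j‖ₑ

lemma measurable_gap {α : Type*} [MeasurableSpace α] {i : ℕ} {f : α → E} {g : α → Fin i → E}
    (hf : Measurable f) (hg : Measurable g) : Measurable fun a => gap (f a) (g a) := by
  unfold gap
  refine Measurable.iInf fun q => ?_
  fun_prop

lemma gap_le_orth {i : ℕ} (w : E) (prev : Fin i → E) :
    gap w prev ≤ ‖w - (Submodule.span ℝ (Set.range prev)).starProjection w‖ₑ := by
  set V := Submodule.span ℝ (Set.range prev)
  obtain ⟨c, hc⟩ := (Submodule.mem_span_range_iff_exists_fun ℝ).1 (V.starProjection_apply_mem w)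
  have hdense : DenseRange (fun q : Fin i → ℚ => fun j => (q j : ℝ)) :=
    DenseRange.piMap fun _ => Rat.denseRange_cast
  refine le_of_forall_gt fun b hb => ?_
  rw [← hc] at hb
  have hopen : IsOpen {x : Fin i → ℝ | ‖w - ∑ j, x j • prev j‖ₑ < b} :=
    isOpen_lt (by fun_prop) continuous_const
  obtain ⟨q, hq⟩ := hdense.exists_mem_open hopen ⟨c, hb⟩
  exact lt_of_le_of_lt (iInf_le _ q) hq

/-- product of `gap⁻¹ ^ k` along a sequence -/
noncomputable def gapProd (k : ℕ) : ∀ {l : ℕ}, (Fin l → E) → ℝ≥0∞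
  | 0, _ => 1
  | l + 1, v => gapProd k (Fin.init v) * (gap (v (Fin.last l)) (Fin.init v))⁻¹ ^ k

lemma measurable_gapProd (k : ℕ) : ∀ {l : ℕ} {α : Type*} [MeasurableSpace α] {g : α → Fin l → E},
    Measurable g → Measurable fun a => gapProd k (g a) := by
  intro l
  induction l with
  | zero => intro α _ g _; exact measurable_const
  | succ l ih =>
    intro α _ g hg
    simp only [gapProd]
    have h1 : Measurable fun a => Fin.init (g a) :=
      measurable_pi_lambda _ fun j => (measurable_pi_apply _).comp hg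
    exact (ih h1).mul (((measurable_gap ((measurable_pi_apply _).comp hg) h1).inv).pow_const k)

/-- all `|⟪x, v i⟫| ≤ δ` -/
lemma row_bound {δ : ℝ} (hδ : 0 < δ) : ∀ {l : ℕ} (v : Fin l → E),
    stdGaussian E {x | ∀ i, |⟪x, v i⟫| ≤ δ}
      ≤ ENNReal.ofReal δ ^ l * gapProd 1 v := by
  intro l
  induction l with
  | zero => intro v; simp [gapProd]
  | succ l ih =>
    intro v
    set G := {x : E | ∀ i : Fin l, |⟪x, Fin.init v i⟫| ≤ δ} with hG
    set w := v (Fin.last l)
    have hset : {x : E | ∀ i, |⟪x, v i⟫| ≤ δ} = G ∩ {x | |⟪x, w⟫| ≤ δ} := by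
      ext x
      simp only [hG, Set.mem_inter_iff, Set.mem_ofPred_eq, Fin.forall_fin_succ', w, Fin.init]
    have hGm : MeasurableSet G := by
      simp only [hG, Set.setOf_forall]
      exact MeasurableSet.iInter fun i => measurableSet_le (by fun_prop) measurable_const
    set V := Submodule.span ℝ (Set.range (Fin.init v))
    set o := w - V.starProjection w
    have hgap : gap w (Fin.init v) ≤ ‖o‖ₑ := gap_le_orth w _
    rw [hset]
    simp only [gapProd, pow_one]
    rcases eq_or_ne o 0 with ho | ho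
    · rw [ho, enorm_zero] at hgap
      have h0 : gap w (Fin.init v) = 0 := le_antisymm hgap zero_le
      rw [h0, ENNReal.inv_zero]
      rcases eq_or_ne (gapProd 1 (Fin.init v)) 0 with hp | hp
      · refine le_of_le_of_eq ((measure_mono Set.inter_subset_left).trans (ih _)) ?_
        simp [hp]
      · rw [ENNReal.mul_top hp, ENNReal.mul_top (pow_ne_zero _ (by simpa using hδ))]
        exact le_top
    set e : E := ‖o‖⁻¹ • o with hee
    have he : ‖e‖ = 1 := by simp [hee, norm_smul, ho]
    have horth : ∀ y ∈ V, ⟪o, y⟫ = 0 := fun y hy =>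
      Submodule.starProjection_inner_eq_zero w y hy
    have hew : ⟪e, w⟫ = ‖o‖ := by
      have h1 : ⟪o, w⟫ = ⟪o, o⟫ := by
        conv_rhs => arg 2; change w - V.starProjection w
        rw [inner_sub_right, horth _ (V.starProjection_apply_mem w), sub_zero]
      rw [hee, real_inner_smul_left, h1, real_inner_self_eq_norm_sq]
      field_simp
    have hinv : ∀ g x, swapCoord e (g, x) ∈ G ↔ x ∈ G := by
      intro g x
      have : ∀ i, ⟪swapCoord e (g, x), Fin.init v i⟫ = ⟪x, Fin.init v i⟫ := by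
        intro i
        simp only [swapCoord, inner_add_left, real_inner_smul_left, hee]
        rw [horth _ (Submodule.subset_span (Set.mem_range_self i))]
        ring
      simp only [hG, Set.mem_ofPred_eq, this]
    refine (smallball_step he (by rw [hew]; exact norm_pos_iff.2 ho) hGm hinv δ).trans ?_
    rw [hew, ENNReal.ofReal_div_of_pos (norm_pos_iff.2 ho), ofReal_norm_eq_enorm, pow_succ,
      div_eq_mul_inv]
    calc ENNReal.ofReal δ * ‖o‖ₑ⁻¹ * stdGaussian E G
        ≤ ENNReal.ofReal δ * (gap w (Fin.init v))⁻¹ * (ENNReal.ofReal δ ^ l * gapProd 1 (Fin.init v)) := by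
          gcongr; exact ih _
      _ = _ := by ring

lemma gapProd_pow (k : ℕ) : ∀ {l : ℕ} (v : Fin l → E), gapProd k v = gapProd 1 v ^ k := by
  intro l
  induction l with
  | zero => intro v; simp [gapProd]
  | succ l ih => intro v; simp only [gapProd, ih, pow_one, mul_pow]

lemma rows_bound {δ : ℝ} (hδ : 0 < δ) (k : ℕ) {l : ℕ} (v : Fin l → E) :
    Measure.pi (fun _ : Fin k => stdGaussian E) {X | ∀ r, ∀ i, |⟪X r, v i⟫| ≤ δ}
      ≤ ENNReal.ofReal δ ^ (k * l) * gapProd k v := by
  have : {X : Fin k → E | ∀ r, ∀ i, |⟪X r, v i⟫| ≤ δ}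
      = Set.univ.pi fun _ => {x : E | ∀ i, |⟪x, v i⟫| ≤ δ} := by
    ext X; simp
  rw [this, Measure.pi_pi, Finset.prod_const, Finset.card_univ, Fintype.card_fin, gapProd_pow,
    mul_comm k l, pow_mul, ← mul_pow]
  gcongr
  exact row_bound hδ v

/-- a `ρ`-cover of a ball in a subspace, by volume comparison -/
lemma exists_cover {q : ℕ} (V : Submodule ℝ E) (hV : Module.finrank ℝ V ≤ q) {ρ : ℝ} (hρ : 0 < ρ)
    (hρ1 : ρ ≤ 1) :
    ∃ T : Finset E, (T.card : ℝ) ≤ (9 / ρ) ^ q ∧ ∀ p ∈ V, ‖p‖ ≤ 4 → ∃ t ∈ T, ‖p - t‖ ≤ ρ := by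
  classical
  have hcard : ∀ T : Finset V, (∀ t ∈ T, ‖t‖ ≤ 4) →
      (∀ t ∈ T, ∀ t' ∈ T, t ≠ t' → ρ < ‖t - t'‖) → (T.card : ℝ) ≤ (9 / ρ) ^ q := by
    intro T hT hsep
    have hdisj : (T : Set V).PairwiseDisjoint fun t => ball t (ρ / 2) := by
      intro t ht t' ht' hne
      exact ball_disjoint_ball (by rw [dist_eq_norm]; linarith [hsep t ht t' ht' hne])
    have hsub : (⋃ t ∈ T, ball t (ρ / 2)) ⊆ ball (0 : V) (4 + ρ / 2) := by
      intro x hx
      simp only [Set.mem_iUnion, mem_ball] at hx ⊢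
      obtain ⟨t, ht, hxt⟩ := hx
      calc dist x 0 ≤ dist x t + dist t 0 := dist_triangle _ _ _
        _ < ρ / 2 + 4 := by rw [dist_zero_right]; linarith [hT t ht]
        _ = _ := by ring
    have h := measure_mono (μ := (volume : Measure V)) hsub
    rw [measure_biUnion_finset hdisj fun _ _ => measurableSet_ball] at h
    simp only [Measure.addHaar_ball_of_pos volume _ (show 0 < ρ / 2 by linarith),
      Measure.addHaar_ball_of_pos volume _ (show 0 < 4 + ρ / 2 by linarith), Finset.sum_const,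
      nsmul_eq_mul, ← mul_assoc] at h
    rw [ENNReal.mul_le_mul_iff_left (measure_ball_pos volume 0 one_pos).ne' measure_ball_lt_top.ne,
      ← ENNReal.ofReal_natCast, ← ENNReal.ofReal_mul (Nat.cast_nonneg _),
      ENNReal.ofReal_le_ofReal_iff (by positivity)] at h
    have h9 : ((4 + ρ / 2) / (ρ / 2)) ^ Module.finrank ℝ V ≤ (9 / ρ) ^ q := by
      refine le_trans (pow_le_pow_left₀ (by positivity) ?_ _) (pow_le_pow_right₀ ?_ hV)
      · rw [div_le_div_iff₀ (by linarith) hρ]; nlinarith
      · rw [le_div_iff₀ hρ]; linarith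
    refine le_trans ?_ h9
    rw [div_pow, le_div_iff₀ (by positivity)]
    exact h
  let good : Set ℕ := {n | ∃ T : Finset V, T.card = n ∧ (∀ t ∈ T, ‖t‖ ≤ 4) ∧
    ∀ t ∈ T, ∀ t' ∈ T, t ≠ t' → ρ < ‖t - t'‖}
  have hbdd : BddAbove good := by
    refine ⟨⌊(9 / ρ) ^ q⌋₊, ?_⟩
    rintro n ⟨T, rfl, h1, h2⟩
    exact Nat.le_floor (hcard T h1 h2)
  have hne : good.Nonempty := ⟨0, ∅, rfl, by simp, by simp⟩
  obtain ⟨T, hTc, hT1, hT2⟩ := Nat.sSup_mem hne hbdd
  refine ⟨T.image (↑), le_trans (Nat.cast_le.2 Finset.card_image_le) (hcard T hT1 hT2), fun p hp hp4 => ?_⟩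
  by_contra hno
  push Not at hno
  have hnew : ∀ t ∈ T, ρ < ‖(⟨p, hp⟩ : V) - t‖ := fun t ht => hno t (Finset.mem_image_of_mem _ ht)
  have hnot : (⟨p, hp⟩ : V) ∉ T := fun h => by simpa [not_lt.2 hρ.le] using hnew _ h
  have : T.card + 1 ∈ good := by
    refine ⟨insert ⟨p, hp⟩ T, Finset.card_insert_of_notMem hnot, ?_, ?_⟩
    · intro t ht
      rcases Finset.mem_insert.1 ht with rfl | ht
      · simpa using hp4
      · exact hT1 t ht
    · intro t ht t' ht' hne
      rcases Finset.mem_insert.1 ht with rfl | ht <;> rcases Finset.mem_insert.1 ht' with rfl | ht'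
      · exact absurd rfl hne
      · exact hnew t' ht'
      · rw [norm_sub_rev]; exact hnew t ht
      · exact hT2 t ht t' ht' hne
  have := le_csSup hbdd this
  omega

/-- measures on the unit ball with a dimension `a` ball bound -/
structure BallBound (ν : Measure E) (K : ℝ≥0∞) (a : ℕ) : Prop where
  supp : ν (closedBall 0 1)ᶜ = 0
  ball : ∀ x, ∀ r : ℝ, 0 < r → ν (closedBall x r) ≤ K * ENNReal.ofReal r ^ a

lemma BallBound.mass {ν : Measure E} {K : ℝ≥0∞} {a : ℕ} (h : BallBound ν K a) :
    ν Set.univ ≤ K := by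
  have hc := measure_add_measure_compl (μ := ν) (measurableSet_closedBall (x := (0:E)) (ε := 1))
  rw [h.supp, add_zero] at hc
  simpa [← hc] using h.ball 0 1 one_pos

lemma near_span {ν : Measure E} {K : ℝ≥0∞} {a : ℕ} (h : BallBound ν K a) {i q : ℕ} (hiq : i ≤ q)
    {u0 : E} (hu0 : ‖u0‖ ≤ 1) (prev : Fin i → E) {ρ : ℝ} (hρ : 0 < ρ) (hρ1 : ρ ≤ 1) :
    ν {u | gap (u - u0) prev ≤ ENNReal.ofReal ρ}
      ≤ ENNReal.ofReal ((9 / ρ) ^ q * (3 * ρ) ^ a) * K := by
  classical
  set V := Submodule.span ℝ (Set.range prev)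
  have hV : Module.finrank ℝ V ≤ q := by
    refine le_trans (finrank_range_le_card prev) ?_
    simpa using hiq
  obtain ⟨T, hT, hcov⟩ := exists_cover V hV hρ hρ1
  have hsub : {u | gap (u - u0) prev ≤ ENNReal.ofReal ρ} ⊆
      (closedBall 0 1)ᶜ ∪ ⋃ t ∈ T, closedBall (u0 + t) (3 * ρ) := by
    intro u hu
    by_cases hu1 : u ∈ closedBall (0 : E) 1
    · refine Or.inr ?_
      rw [mem_closedBall_zero_iff] at hu1
      have : gap (u - u0) prev < ENNReal.ofReal (2 * ρ) :=
        lt_of_le_of_lt hu ((ENNReal.ofReal_lt_ofReal_iff (by linarith)).2 (by linarith))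
      obtain ⟨c, hc⟩ := iInf_lt_iff.1 this
      rw [← ofReal_norm_eq_enorm, ENNReal.ofReal_lt_ofReal_iff (by linarith)] at hc
      set p := ∑ j, (c j : ℝ) • prev j
      have hpV : p ∈ V := Submodule.sum_mem _ fun j _ =>
        Submodule.smul_mem _ _ (Submodule.subset_span (Set.mem_range_self j))
      have hp4 : ‖p‖ ≤ 4 := by
        have := norm_le_norm_sub_add p (u - u0)
        rw [norm_sub_rev p] at this
        linarith [norm_sub_le u u0]
      obtain ⟨t, ht, htp⟩ := hcov p hpV hp4
      refine Set.mem_iUnion₂.2 ⟨t, ht, ?_⟩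
      rw [mem_closedBall, dist_eq_norm]
      calc ‖u - (u0 + t)‖ = ‖(u - u0 - p) + (p - t)‖ := by congr 1; abel
        _ ≤ _ := norm_add_le _ _
        _ ≤ 3 * ρ := by linarith
    · exact Or.inl hu1
  refine (measure_mono hsub).trans ((measure_union_le _ _).trans ?_)
  rw [h.supp, zero_add]
  refine (measure_biUnion_finset_le _ _).trans ?_
  refine le_trans (Finset.sum_le_sum fun t _ => h.ball _ _ (by linarith : 0 < 3 * ρ)) ?_
  rw [Finset.sum_const, nsmul_eq_mul, mul_comm K, ← ENNReal.ofReal_pow (by linarith : 0 ≤ 3 * ρ),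
    ENNReal.ofReal_mul (by positivity), mul_assoc]
  gcongr
  rw [← ENNReal.ofReal_natCast]
  exact ENNReal.ofReal_le_ofReal hT

/-- constant in the second moment -/
noncomputable def C3 (k q a : ℕ) : ℝ≥0∞ := ENNReal.ofReal (1 + 2 * 9 ^ q * 3 ^ a * 4 ^ k)

lemma gap_moment {ν : Measure E} {K : ℝ≥0∞} {a : ℕ} (h : BallBound ν K a) {i q k : ℕ}
    (hiq : i ≤ q) (ha : q + 2 * k + 1 ≤ a) {u0 : E} (hu0 : ‖u0‖ ≤ 1) (prev : Fin i → E) :
    ∫⁻ u, (gap (u - u0) prev)⁻¹ ^ (2 * k) ∂ν ≤ K * C3 k q a := by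
  set g := fun u => gap (u - u0) prev
  have hgm : Measurable g := measurable_gap (by fun_prop) measurable_const
  set A : ℕ → Set E := fun n => {u | g u ≤ ENNReal.ofReal ((1 / 2) ^ n)}
  set c : ℕ → ℝ≥0∞ := fun n => ENNReal.ofReal ((2 ^ (n + 1)) ^ (2 * k))
  have hpt : ∀ u, (g u)⁻¹ ^ (2 * k) ≤ 1 + ∑' n, (A n).indicator (fun _ => c n) u := by
    intro u
    by_cases h1 : 1 ≤ g u
    · exact le_trans (pow_le_one₀ zero_le (ENNReal.inv_le_one.2 h1)) le_self_add
    push Not at h1
    by_cases h0 : ∀ n, g u ≤ ENNReal.ofReal ((1 / 2) ^ n)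
    · refine le_trans ?_ le_add_self
      have : ∀ n, (A n).indicator (fun _ => c n) u = c n := fun n =>
        Set.indicator_of_mem (show u ∈ A n from h0 n) _
      simp only [this]
      refine le_trans le_top ((ENNReal.tsum_const_eq_top_of_ne_zero (α := ℕ) one_ne_zero).ge.trans
        (ENNReal.tsum_le_tsum fun n => ?_))
      simp only [c]
      rw [← ENNReal.ofReal_one]
      exact ENNReal.ofReal_le_ofReal (one_le_pow₀ (one_le_pow₀ (by norm_num)))
    push Not at h0
    classical
    have hn0 : 0 < Nat.find h0 := by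
      by_contra hh
      have := Nat.find_spec h0
      rw [show Nat.find h0 = 0 by omega] at this
      simp at this
      exact absurd h1 (not_lt.2 this.le)
    obtain ⟨n, hn⟩ : ∃ n, Nat.find h0 = n + 1 := ⟨Nat.find h0 - 1, by omega⟩
    have hmem : u ∈ A n := not_lt.1 (Nat.find_min h0 (m := n) (by omega))
    refine le_trans ?_ (le_trans (ENNReal.le_tsum n) le_add_self)
    rw [Set.indicator_of_mem hmem]
    simp only [c]
    rw [ENNReal.ofReal_pow (by positivity)]
    gcongr
    have := Nat.find_spec h0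
    rw [hn] at this
    refine (ENNReal.inv_le_inv.2 this.le).trans (le_of_eq ?_)
    rw [← ENNReal.ofReal_inv_of_pos (by positivity), one_div, inv_pow, inv_inv]
  refine (lintegral_mono hpt).trans ?_
  rw [lintegral_add_left measurable_const, lintegral_const, one_mul,
    lintegral_tsum fun n => (measurable_const.indicator (measurableSet_le hgm measurable_const)).aemeasurable]
  simp only [lintegral_indicator_const (measurableSet_le hgm measurable_const), A]
  rw [C3, ENNReal.ofReal_add zero_le_one (by positivity), ENNReal.ofReal_one, mul_add, mul_one]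
  refine add_le_add h.mass ?_
  calc ∑' n, c n * ν {u | g u ≤ ENNReal.ofReal ((1 / 2) ^ n)}
      ≤ ∑' n : ℕ, ENNReal.ofReal (9 ^ q * 3 ^ a * 4 ^ k * (1 / 2) ^ n) * K := by
        refine ENNReal.tsum_le_tsum fun n => ?_
        have hρ : (0:ℝ) < (1 / 2) ^ n := by positivity
        refine le_trans (mul_le_mul_right (near_span h hiq hu0 prev hρ
          (pow_le_one₀ (by norm_num) (by norm_num))) _) ?_
        simp only [c]
        rw [← mul_assoc, ← ENNReal.ofReal_mul (by positivity)]
        refine mul_le_mul_left (ENNReal.ofReal_le_ofReal ?_) _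
        have e1 : ((1:ℝ) / 2) ^ n = ((2:ℝ) ^ n)⁻¹ := by rw [one_div, inv_pow]
        have hx : (1:ℝ) ≤ 2 ^ n := one_le_pow₀ (by norm_num)
        rw [e1]
        set x := (2:ℝ) ^ n with hxd
        have h4 : ((2:ℝ) ^ (n + 1)) ^ (2 * k) = x ^ (2 * k) * 4 ^ k := by
          rw [pow_succ, mul_pow, ← hxd, show (4:ℝ) = 2 ^ 2 by norm_num, ← pow_mul 2 2 k]
        rw [h4, div_inv_eq_mul, mul_pow, mul_pow, inv_pow]
        calc x ^ (2 * k) * 4 ^ k * (9 ^ q * x ^ q * (3 ^ a * (x ^ a)⁻¹))
            = 9 ^ q * 3 ^ a * 4 ^ k * (x ^ (2 * k + q) * (x ^ a)⁻¹) := by ring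
          _ ≤ 9 ^ q * 3 ^ a * 4 ^ k * x⁻¹ := by
              refine mul_le_mul_of_nonneg_left ?_ (by positivity)
              rw [← div_eq_mul_inv, inv_eq_one_div, div_le_div_iff₀ (by positivity) (by positivity),
                one_mul, ← pow_succ]
              exact pow_le_pow_right₀ hx (by omega)
    _ = K * ENNReal.ofReal (2 * 9 ^ q * 3 ^ a * 4 ^ k) := by
        rw [ENNReal.tsum_mul_right, mul_comm K, ← ENNReal.ofReal_tsum_of_nonneg
          (fun n => by positivity) ((summable_geometric_two).mul_left _), tsum_mul_left,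
          tsum_geometric_two]
        congr 2; ring

/-- iterated moment bound -/
lemma prod_moment {ν : Measure E} [IsFiniteMeasure ν] {K : ℝ≥0∞} {a : ℕ} (h : BallBound ν K a)
    {q k : ℕ} (ha : q + 2 * k + 1 ≤ a) (S : Set E) {u0 : E} (hu0 : ‖u0‖ ≤ 1) :
    ∀ l, l ≤ q + 1 →
      ∫⁻ u, gapProd k (fun i => u i - u0) ∂Measure.pi (fun _ : Fin l => ν.restrict S)
        ≤ ((ν S * (K * C3 k q a)) ^ ((1:ℝ) / 2)) ^ l := by
  intro l
  induction l with
  | zero => intro _; simp [gapProd, lintegral_const]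
  | succ l ih =>
    intro hl
    have hmp := measurePreserving_piFinSuccAbove (fun _ : Fin (l + 1) => ν.restrict S) (Fin.last l)
    have hmeas : Measurable fun u : Fin (l + 1) → E => gapProd k (fun i => u i - u0) :=
      measurable_gapProd k (by fun_prop)
    rw [← hmp.symm.lintegral_comp hmeas]
    refine (lintegral_prod_symm _ (hmeas.comp (MeasurableEquiv.measurable _)).aemeasurable).trans_le ?_
    have hstep : ∀ prev : Fin l → E,
        ∫⁻ w, gapProd k (fun i => ((MeasurableEquiv.piFinSuccAbove (fun _ => E) (Fin.last l)).symm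
          (w, prev)) i - u0) ∂ν.restrict S
        ≤ gapProd k (fun i => prev i - u0) * (ν S * (K * C3 k q a)) ^ ((1:ℝ) / 2) := by
      intro prev
      have he : ∀ w : E, gapProd k (fun i => ((MeasurableEquiv.piFinSuccAbove (fun _ => E)
          (Fin.last l)).symm (w, prev)) i - u0)
          = gapProd k (fun i => prev i - u0) * (gap (w - u0) (fun i => prev i - u0))⁻¹ ^ k := by
        intro w
        simp only [gapProd, MeasurableEquiv.piFinSuccAbove_symm_apply, Fin.insertNthEquiv_apply,
          Fin.insertNth_last', Fin.snoc_last]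
        have hinit : (Fin.init fun i : Fin (l + 1) => (Fin.snoc prev w : Fin (l + 1) → E) i - u0)
            = fun i => prev i - u0 := by
          funext j; simp [Fin.init]
        rw [hinit]
      simp only [he]
      have hm : Measurable fun w => (gap (w - u0) (fun i => prev i - u0))⁻¹ ^ k :=
        (measurable_gap (by fun_prop) measurable_const).inv.pow_const k
      rw [lintegral_const_mul _ hm]
      gcongr
      have hh := ENNReal.lintegral_mul_le_Lp_mul_Lq (ν.restrict S) Real.HolderConjugate.two_two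
        hm.aemeasurable (aemeasurable_const (b := (1:ℝ≥0∞)))
      simp only [Pi.mul_apply, mul_one, ENNReal.one_rpow, lintegral_const, one_mul,
        Measure.restrict_apply_univ] at hh
      refine hh.trans ?_
      rw [← ENNReal.mul_rpow_of_nonneg _ _ (by norm_num : (0:ℝ) ≤ 1 / 2), mul_comm (ν S)]
      refine ENNReal.rpow_le_rpow ?_ (by norm_num)
      gcongr
      refine le_trans (setLIntegral_le_lintegral _ _) ?_
      refine le_of_eq_of_le (lintegral_congr fun w => ?_) (gap_moment h (q := q) (by omega : l ≤ q) ha hu0 (fun i => prev i - u0))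
      rw [ENNReal.rpow_two, ← pow_mul, mul_comm k 2]
    refine le_trans (lintegral_mono fun prev => hstep prev) ?_
    rw [lintegral_mul_const _ (measurable_gapProd k (by fun_prop)), pow_succ]
    exact mul_le_mul_left (ih (by omega)) _

end Vale.Agent.P309
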