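import Mathlib
import Vale.Agent.P309.Gauss
import Vale.Agent.P309.Cover

/-
The slicing lemma: a Hoelder inequality of high order for the law of `(X, X u)`.
-/

namespace Vale.Agent.P309

open MeasureTheory ProbabilityTheory Metric
open scoped RealInnerProductSpace ENNReal NNReal

variable {E : Type*} [NormedAddCommGroup E] [InnerProductSpace ℝ E] [FiniteDimensional ℝ E]
  [MeasurableSpace E] [BorelSpace E]

/-- Gaussian law of `k` rows -/
noncomputable def rowsLaw (E : Type*) [NormedAddCommGroup E] [InnerProductSpace ℝ E]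
    [FiniteDimensional ℝ E] [MeasurableSpace E] (k : ℕ) : Measure (Fin k → E) :=
  Measure.pi fun _ : Fin k => stdGaussian E

instance (k : ℕ) : IsProbabilityMeasure (rowsLaw E k) :=
  inferInstanceAs (IsProbabilityMeasure (Measure.pi fun _ : Fin k => stdGaussian E))

/-- reference law of `(X, w)` -/
noncomputable def refLaw (E : Type*) [NormedAddCommGroup E] [InnerProductSpace ℝ E]
    [FiniteDimensional ℝ E] [MeasurableSpace E] (k : ℕ) : Measure ((Fin k → E) × (Fin k → ℝ)) :=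
  (rowsLaw E k).prod (gaussPi k)

instance (k : ℕ) : IsProbabilityMeasure (refLaw E k) :=
  inferInstanceAs (IsProbabilityMeasure ((rowsLaw E k).prod (gaussPi k)))

/-- labels -/
noncomputable def labels {k : ℕ} (X : Fin k → E) (u : E) : Fin k → ℝ := fun r => ⟪X r, u⟫

@[fun_prop]
lemma measurable_labels {k : ℕ} :
    Measurable fun p : (Fin k → E) × E => labels p.1 p.2 := by
  unfold labels; fun_prop

/-- pairs `(X,u)` with `(X, X u) ∈ A` and labels in the bulk -/
def hitSet {k : ℕ} (A : Set ((Fin k → E) × (Fin k → ℝ))) : Set ((Fin k → E) × E) :=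
  {p | (p.1, labels p.1 p.2) ∈ A ∧ ∑ r, labels p.1 p.2 r ^ 2 ≤ 4 * (k : ℝ)}

lemma measurableSet_hitSet {k : ℕ} {A : Set ((Fin k → E) × (Fin k → ℝ))} (hA : MeasurableSet A) :
    MeasurableSet (hitSet A) :=
  (measurableSet_preimage (measurable_fst.prodMk measurable_labels) hA).inter
    (measurableSet_le (show Measurable fun p : (Fin k → E) × E => ∑ r, labels p.1 p.2 r ^ 2 by
      unfold labels; fun_prop) measurable_const)

/-- probability of hitting `A` given `u` -/
noncomputable def hitProb {k : ℕ} (A : Set ((Fin k → E) × (Fin k → ℝ))) (u : E) : ℝ≥0∞ :=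
  rowsLaw E k ((fun X => (X, u)) ⁻¹' hitSet A)

lemma measurable_hitProb {k : ℕ} {A : Set ((Fin k → E) × (Fin k → ℝ))} (hA : MeasurableSet A) :
    Measurable (hitProb (E := E) A) :=
  measurable_measure_prodMk_right (measurableSet_hitSet hA)

lemma hitProb_le_one {k : ℕ} (A : Set ((Fin k → E) × (Fin k → ℝ))) (u : E) :
    hitProb A u ≤ 1 := prob_le_one

/-- a set which is a union of products `Y c × box c` -/
def boxSet {k : ℕ} (n : ℕ) (Y : (Fin k → ℤ) → Set (Fin k → E)) :
    Set ((Fin k → E) × (Fin k → ℝ)) :=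
  {p | p.1 ∈ Y (boxIndex n p.2)}

lemma measurableSet_boxSet {k : ℕ} (n : ℕ) {Y : (Fin k → ℤ) → Set (Fin k → E)}
    (hY : ∀ c, MeasurableSet (Y c)) : MeasurableSet (boxSet n Y) := by
  have : boxSet n Y = ⋃ c, (Y c) ×ˢ (boxIndex n ⁻¹' {c}) := by
    ext p; simp [boxSet]
  rw [this]
  exact MeasurableSet.iUnion fun c =>
    (hY c).prod (measurableSet_preimage (measurable_boxIndex n) (measurableSet_singleton c))

/-- right hand side of the slicing lemma -/
noncomputable def sliceConst (ν : Measure E) (K : ℝ≥0∞) (k l a : ℕ) (S : Set E) : ℝ≥0∞ :=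
  ENNReal.ofReal 64 ^ (k * l) * (ν S * ((ν S * (K * C3 k l a)) ^ ((1:ℝ) / 2)) ^ l)

lemma level_moment {ν : Measure E} [IsFiniteMeasure ν] {K : ℝ≥0∞} {a : ℕ} (h : BallBound ν K a)
    {k l : ℕ} (ha : l + 2 * k + 1 ≤ a) (S : Set E) (n : ℕ) :
    ∫⁻ X, ∑' c : Fin k → ℤ,
        ν.restrict S {u | boxIndex n (labels X u) = c} ^ (l + 1) ∂rowsLaw E k
      ≤ ENNReal.ofReal (1 / 2 ^ n) ^ (k * l)
          * (ν S * ((ν S * (K * C3 k l a)) ^ ((1:ℝ) / 2)) ^ l) := by
  set μ := ν.restrict S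
  set T : Set (((Fin k → E) × E) × (Fin l → E)) :=
    {p | ∀ r i, |⟪p.1.1 r, p.2 i - p.1.2⟫| ≤ 1 / (2:ℝ) ^ n}
  have hT : MeasurableSet T := by
    simp only [T, Set.setOf_forall]
    exact MeasurableSet.iInter fun r => MeasurableSet.iInter fun i =>
      measurableSet_le (by fun_prop) measurable_const
  have hpt : ∀ X : Fin k → E, ∑' c : Fin k → ℤ, μ {u | boxIndex n (labels X u) = c} ^ (l + 1)
      ≤ ∫⁻ u0, Measure.pi (fun _ : Fin l => μ) (Prod.mk (X, u0) ⁻¹' T) ∂μ := by
    intro X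
    have hh : Measurable fun u => boxIndex n (labels X u) :=
      (measurable_boxIndex n).comp (by unfold labels; fun_prop)
    have : ∑' c : Fin k → ℤ, μ {u | boxIndex n (labels X u) = c} ^ (l + 1)
        = ∫⁻ u0, μ {u | boxIndex n (labels X u) = boxIndex n (labels X u0)} ^ l ∂μ := by
      rw [← lintegral_map (f := fun c => μ {u | boxIndex n (labels X u) = c} ^ l)
        (measurable_of_countable _) hh, lintegral_countable']
      refine tsum_congr fun c => ?_
      rw [Measure.map_apply hh (measurableSet_singleton c), pow_succ]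
      rfl
    rw [this]
    refine lintegral_mono fun u0 => ?_
    rw [show μ {u | boxIndex n (labels X u) = boxIndex n (labels X u0)} ^ l
        = Measure.pi (fun _ : Fin l => μ) (Set.univ.pi fun _ =>
          {u | boxIndex n (labels X u) = boxIndex n (labels X u0)}) by
      rw [Measure.pi_pi, Finset.prod_const, Finset.card_univ, Fintype.card_fin]]
    refine measure_mono fun u hu => ?_
    simp only [Set.mem_univ_pi, Set.mem_ofPred_eq] at hu
    simp only [T, Set.mem_preimage, Set.mem_ofPred_eq]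
    intro r i
    have h1 := congrFun (hu i) r
    simp only [boxIndex, labels] at h1
    have h2 := Int.abs_sub_lt_one_of_floor_eq_floor h1
    rw [← mul_sub, abs_mul, abs_of_pos (by positivity : (0:ℝ) < 2 ^ n)] at h2
    rw [inner_sub_right, le_div_iff₀ (by positivity)]
    linarith
  refine (lintegral_mono hpt).trans ?_
  have hmeasT : Measurable fun p : (Fin k → E) × E =>
      Measure.pi (fun _ : Fin l => μ) (Prod.mk p ⁻¹' T) := measurable_measure_prodMk_left hT
  rw [lintegral_lintegral_swap hmeasT.aemeasurable]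
  have hae : ∀ᵐ u0 ∂μ, ‖u0‖ ≤ 1 := by
    refine ae_restrict_of_ae ?_
    rw [ae_iff]
    refine measure_mono_null (fun u hu => ?_) h.supp
    simpa [dist_zero_right] using hu
  calc ∫⁻ u0, ∫⁻ X, Measure.pi (fun _ : Fin l => μ) (Prod.mk (X, u0) ⁻¹' T) ∂rowsLaw E k ∂μ
      ≤ ∫⁻ _u0, ENNReal.ofReal (1 / 2 ^ n) ^ (k * l)
          * ((ν S * (K * C3 k l a)) ^ ((1:ℝ) / 2)) ^ l ∂μ := by
        refine lintegral_mono_ae (hae.mono fun u0 hu0 => ?_)
        set T' : Set ((Fin k → E) × (Fin l → E)) := (fun p => ((p.1, u0), p.2)) ⁻¹' T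
        have hT' : MeasurableSet T' := measurableSet_preimage (by fun_prop) hT
        calc ∫⁻ X, Measure.pi (fun _ : Fin l => μ) (Prod.mk (X, u0) ⁻¹' T) ∂rowsLaw E k
            = ((rowsLaw E k).prod (Measure.pi fun _ : Fin l => μ)) T' := by
              rw [Measure.prod_apply hT']; rfl
          _ = ∫⁻ u, rowsLaw E k ((fun X => (X, u)) ⁻¹' T') ∂Measure.pi (fun _ : Fin l => μ) :=
              Measure.prod_apply_symm hT'
          _ ≤ ∫⁻ u, ENNReal.ofReal (1 / 2 ^ n) ^ (k * l) * gapProd k (fun i => u i - u0)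
                ∂Measure.pi (fun _ : Fin l => μ) :=
              lintegral_mono fun u => rows_bound (by positivity) k fun i => u i - u0
          _ ≤ _ := by
              rw [lintegral_const_mul _ (measurable_gapProd k (by fun_prop))]
              gcongr
              exact prod_moment h ha S hu0 l (by omega)
    _ = _ := by
        rw [lintegral_const, Measure.restrict_apply_univ]
        ring

/-- sets of `u` whose labels lie in box `c` and in the bulk -/
def bulkBox {k : ℕ} (n : ℕ) (c : Fin k → ℤ) : Set ((Fin k → E) × E) :=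
  {p | boxIndex n (labels p.1 p.2) = c ∧ ∑ r, labels p.1 p.2 r ^ 2 ≤ 4 * (k : ℝ)}

lemma measurableSet_bulkBox {k : ℕ} (n : ℕ) (c : Fin k → ℤ) :
    MeasurableSet (bulkBox (E := E) n c) :=
  (measurableSet_preimage ((measurable_boxIndex n).comp measurable_labels)
    (measurableSet_singleton c)).inter
    (measurableSet_le (show Measurable fun p : (Fin k → E) × E => ∑ r, labels p.1 p.2 r ^ 2 by
      unfold labels; fun_prop) measurable_const)

/-- density used in the Hoelder inequality -/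
noncomputable def dens (μ : Measure E) {k : ℕ} (n : ℕ)
    (p : (Fin k → E) × (Fin k → ℤ)) : ℝ≥0∞ :=
  μ (Prod.mk p.1 ⁻¹' bulkBox n p.2) / (gaussPi k).map (boxIndex n) {p.2}

lemma measurable_dens (μ : Measure E) [SFinite μ] {k : ℕ} (n : ℕ) :
    Measurable (dens (k := k) μ n) := by
  refine measurable_from_prod_countable_left fun c => ?_
  simp only [dens]
  have h := measurable_measure_prodMk_left (ν := μ) (measurableSet_bulkBox (E := E) n c)
  exact h.div_const ((gaussPi k).map (boxIndex n) {c})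

lemma dens_mul (μ : Measure E) {k : ℕ} {n : ℕ} (hn : 3 ≤ n) (X : Fin k → E) (c : Fin k → ℤ) :
    dens μ n (X, c) * (gaussPi k).map (boxIndex n) {c} = μ (Prod.mk X ⁻¹' bulkBox n c) ∧
    dens μ n (X, c) ≤
      μ (Prod.mk X ⁻¹' bulkBox n c) * (ENNReal.ofReal (1 / (64 * 2 ^ n)) ^ k)⁻¹ := by
  unfold dens
  rcases eq_or_ne (μ (Prod.mk X ⁻¹' bulkBox n c)) 0 with h0 | h0
  · simp [h0]
  obtain ⟨u, hu, hub⟩ := nonempty_of_measure_ne_zero h0
  have hb : ENNReal.ofReal (1 / (64 * 2 ^ n)) ^ k ≤ (gaussPi k).map (boxIndex n) {c} := by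
    rw [Measure.map_apply (measurable_boxIndex n) (measurableSet_singleton c), ← hu]
    exact box_mass n hn hub
  refine ⟨ENNReal.div_mul_cancel (ne_of_gt (lt_of_lt_of_le ?_ hb)) (measure_ne_top _ _), ?_⟩
  · exact pos_iff_ne_zero.2 (pow_ne_zero _ (by simp))
  · rw [div_eq_mul_inv]; gcongr

lemma hit_le_int (μ : Measure E) [SFinite μ] {k : ℕ} {n : ℕ} (hn : 3 ≤ n)
    {Y : (Fin k → ℤ) → Set (Fin k → E)} (hY : ∀ c, MeasurableSet (Y c)) :
    ∫⁻ u, hitProb (boxSet n Y) u ∂μ
      ≤ ∫⁻ p, ({p : (Fin k → E) × (Fin k → ℤ) | p.1 ∈ Y p.2}).indicator 1 p * dens μ n p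
          ∂(rowsLaw E k).prod ((gaussPi k).map (boxIndex n)) := by
  have hs := measurableSet_hitSet (measurableSet_boxSet n hY) (E := E)
  have hO : MeasurableSet {p : (Fin k → E) × (Fin k → ℤ) | p.1 ∈ Y p.2} := by
    have : {p : (Fin k → E) × (Fin k → ℤ) | p.1 ∈ Y p.2} = ⋃ c, (Y c) ×ˢ {c} := by ext p; simp
    rw [this]; exact MeasurableSet.iUnion fun c => (hY c).prod (measurableSet_singleton c)
  refine le_of_le_of_eq ?_ (lintegral_prod
    (fun p => ({p : (Fin k → E) × (Fin k → ℤ) | p.1 ∈ Y p.2}).indicator 1 p * dens μ n p)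
    ((measurable_one.indicator hO).mul (measurable_dens μ n)).aemeasurable).symm
  calc ∫⁻ u, hitProb (boxSet n Y) u ∂μ
      = ((rowsLaw E k).prod μ) (hitSet (boxSet n Y)) := (Measure.prod_apply_symm hs).symm
    _ = ∫⁻ X, μ (Prod.mk X ⁻¹' hitSet (boxSet n Y)) ∂rowsLaw E k := Measure.prod_apply hs
    _ ≤ _ := by
        refine lintegral_mono fun X => ?_
        rw [lintegral_countable']
        have hsub : Prod.mk X ⁻¹' hitSet (boxSet n Y) ⊆
            ⋃ c, {u | X ∈ Y c ∧ u ∈ Prod.mk X ⁻¹' bulkBox n c} :=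
          fun u hu => Set.mem_iUnion.2 ⟨_, hu.1, rfl, hu.2⟩
        refine (measure_mono hsub).trans ((measure_iUnion_le _).trans
          (ENNReal.tsum_le_tsum fun c => ?_))
        by_cases hc : X ∈ Y c
        · rw [Set.indicator_of_mem (show (X, c) ∈ {p : (Fin k → E) × (Fin k → ℤ) | p.1 ∈ Y p.2}
              from hc), Pi.one_apply, one_mul, (dens_mul μ hn X c).1]
          exact measure_mono fun u hu => hu.2
        · simp [hc]

lemma dens_Lp {ν : Measure E} [IsFiniteMeasure ν] {K : ℝ≥0∞} {a : ℕ} (h : BallBound ν K a)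
    {k l : ℕ} (ha : l + 2 * k + 1 ≤ a) (S : Set E) {n : ℕ} (hn : 3 ≤ n) :
    ∫⁻ p, dens (ν.restrict S) n p ^ ((l:ℝ) + 1)
        ∂(rowsLaw E k).prod ((gaussPi k).map (boxIndex n))
      ≤ sliceConst ν K k l a S := by
  set b : ℝ≥0∞ := ENNReal.ofReal (1 / (64 * 2 ^ n)) ^ k with hb
  have hb0 : b ≠ 0 := pow_ne_zero _ (by simp)
  rw [lintegral_prod _ ((measurable_dens _ n).pow_const _).aemeasurable]
  calc _ ≤ ∫⁻ X, (b ^ l)⁻¹ * ∑' c : Fin k → ℤ,
          ν.restrict S {u | boxIndex n (labels X u) = c} ^ (l + 1) ∂rowsLaw E k := by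
        refine lintegral_mono fun X => ?_
        rw [lintegral_countable', ← ENNReal.tsum_mul_left]
        refine ENNReal.tsum_le_tsum fun c => ?_
        obtain ⟨h1, h2⟩ := dens_mul (ν.restrict S) hn X c
        rw [show ((l:ℝ) + 1) = ((l + 1 : ℕ) : ℝ) by push_cast; ring, ENNReal.rpow_natCast,
          pow_succ (dens (ν.restrict S) n (X, c)), mul_assoc, h1]
        refine le_trans (mul_le_mul_left (pow_le_pow_left' h2 l) _) ?_
        rw [mul_pow, ← hb, ← ENNReal.inv_pow, mul_comm (_ ^ l) (b ^ l)⁻¹, mul_assoc, ← pow_succ]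
        gcongr
        exact fun u hu => hu.1
    _ ≤ (b ^ l)⁻¹ * (ENNReal.ofReal (1 / 2 ^ n) ^ (k * l)
          * (ν S * ((ν S * (K * C3 k l a)) ^ ((1:ℝ) / 2)) ^ l)) := by
        rw [lintegral_const_mul' _ _ (ENNReal.inv_ne_top.2 (pow_ne_zero _ hb0))]
        gcongr
        exact level_moment h ha S n
    _ = sliceConst ν K k l a S := by
        rw [sliceConst, ← mul_assoc]
        congr 1
        rw [hb, ← pow_mul, ENNReal.inv_pow, ← mul_pow,
          ← ENNReal.ofReal_inv_of_pos (by positivity), ← ENNReal.ofReal_mul (by positivity)]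
        congr 2
        field_simp

lemma slice_level {ν : Measure E} [IsFiniteMeasure ν] {K : ℝ≥0∞} {a : ℕ} (h : BallBound ν K a)
    {k l : ℕ} (hl : 1 ≤ l) (ha : l + 2 * k + 1 ≤ a) (S : Set E) {n : ℕ} (hn : 3 ≤ n)
    {Y : (Fin k → ℤ) → Set (Fin k → E)} (hY : ∀ c, MeasurableSet (Y c)) :
    ∫⁻ u in S, hitProb (boxSet n Y) u ∂ν
      ≤ refLaw E k (boxSet n Y) ^ ((l:ℝ) / (l + 1))
          * sliceConst ν K k l a S ^ ((1:ℝ) / (l + 1)) := by
  set O := {p : (Fin k → E) × (Fin k → ℤ) | p.1 ∈ Y p.2}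
  have hO : MeasurableSet O := by
    have : O = ⋃ c, (Y c) ×ˢ {c} := by ext p; simp [O]
    rw [this]; exact MeasurableSet.iUnion fun c => (hY c).prod (measurableSet_singleton c)
  have hl' : (0:ℝ) < l := by exact_mod_cast hl
  have hpq : (((l:ℝ) + 1) / l).HolderConjugate ((l:ℝ) + 1) := by
    rw [Real.holderConjugate_iff]
    refine ⟨by rw [lt_div_iff₀ hl']; linarith, by field_simp⟩
  refine (hit_le_int (ν.restrict S) hn hY).trans ?_
  have hH := ENNReal.lintegral_mul_le_Lp_mul_Lq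
    ((rowsLaw E k).prod ((gaussPi k).map (boxIndex n))) hpq
    ((measurable_one (α := ℝ≥0∞) (β := (Fin k → E) × (Fin k → ℤ))).indicator hO).aemeasurable
    (measurable_dens (ν.restrict S) n).aemeasurable
  simp only [Pi.mul_apply] at hH
  refine hH.trans ?_
  rw [show (1:ℝ) / (((l:ℝ) + 1) / l) = (l:ℝ) / (l + 1) by rw [one_div_div]]
  refine mul_le_mul' (ENNReal.rpow_le_rpow (le_of_eq ?_) (by positivity))
    (ENNReal.rpow_le_rpow (dens_Lp h ha S hn) (by positivity))
  have : ∀ p : (Fin k → E) × (Fin k → ℤ),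
      O.indicator (1 : (Fin k → E) × (Fin k → ℤ) → ℝ≥0∞) p ^ (((l:ℝ) + 1) / l)
        = O.indicator (1 : (Fin k → E) × (Fin k → ℤ) → ℝ≥0∞) p := by
    intro p
    by_cases hp : p ∈ O
    · simp [hp]
    · simp [hp, ENNReal.zero_rpow_of_pos (show (0:ℝ) < ((l:ℝ) + 1) / l by positivity)]
  simp only [this]
  rw [lintegral_indicator_one hO, Measure.prod_apply hO, refLaw,
    Measure.prod_apply (measurableSet_boxSet n hY)]
  refine lintegral_congr fun X => ?_
  rw [Measure.map_apply (measurable_boxIndex n) (measurable_prodMk_left hO)]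
  rfl

lemma slice_open {ν : Measure E} [IsFiniteMeasure ν] {K : ℝ≥0∞} {a : ℕ} (h : BallBound ν K a)
    {k l : ℕ} (hl : 1 ≤ l) (ha : l + 2 * k + 1 ≤ a) (S : Set E)
    {U : Set ((Fin k → E) × (Fin k → ℝ))} (hU : IsOpen U) :
    ∫⁻ u in S, hitProb U u ∂ν
      ≤ refLaw E k U ^ ((l:ℝ) / (l + 1)) * sliceConst ν K k l a S ^ ((1:ℝ) / (l + 1)) := by
  set Bx : ℕ → (Fin k → ℤ) → Set (Fin k → ℝ) := fun n c =>
    Set.univ.pi fun i => Set.Icc ((c i : ℝ) / 2 ^ n) (((c i : ℝ) + 1) / 2 ^ n)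
  set Y : ℕ → (Fin k → ℤ) → Set (Fin k → E) := fun n c => {X | ∀ w ∈ Bx n c, (X, w) ∈ U}
  have hYo : ∀ n c, IsOpen (Y n c) := by
    intro n c
    rw [isOpen_iff_mem_nhds]
    intro X hX
    exact (isCompact_univ_pi fun i => isCompact_Icc).eventually_forall_of_forall_eventually
      fun w hw => hU.mem_nhds (hX w hw)
  have hself : ∀ n (w : Fin k → ℝ), w ∈ Bx n (boxIndex n w) := by
    intro n w i _
    have h2 : (0:ℝ) < 2 ^ n := by positivity
    have h1 := Int.floor_le ((2:ℝ) ^ n * w i)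
    have h3 := Int.lt_floor_add_one ((2:ℝ) ^ n * w i)
    simp only [boxIndex, Set.mem_Icc]
    rw [div_le_iff₀ h2, le_div_iff₀ h2]
    constructor <;> linarith
  have hsubU : ∀ n, boxSet n (Y n) ⊆ U := fun n p hp => hp p.2 (hself n p.2)
  set O : ℕ → Set ((Fin k → E) × (Fin k → ℝ)) := fun n => boxSet (n + 3) (Y (n + 3))
  have hmono : Monotone O := by
    refine monotone_nat_of_le_succ fun n p hp w hw => hp w fun i _ => ?_
    have hi := hw i trivial
    simp only [boxIndex, Set.mem_Icc] at hi ⊢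
    set m := n + 3
    rw [show n + 1 + 3 = m + 1 from rfl] at hi
    have h2 : (0:ℝ) < 2 ^ m := by positivity
    set x := (2:ℝ) ^ m * p.2 i
    have hx2 : (2:ℝ) ^ (m + 1) * p.2 i = 2 * x := by simp only [x]; ring
    have hp2 : (2:ℝ) ^ (m + 1) = 2 * 2 ^ m := by ring
    rw [hx2, hp2] at hi
    have a1 : 2 * (⌊x⌋ : ℝ) ≤ (⌊2 * x⌋ : ℝ) := by
      have : 2 * ⌊x⌋ ≤ ⌊2 * x⌋ := Int.le_floor.2 (by push_cast; linarith [Int.floor_le x])
      exact_mod_cast this
    have a2 : (⌊2 * x⌋ : ℝ) + 1 ≤ 2 * ((⌊x⌋ : ℝ) + 1) := by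
      have : ⌊2 * x⌋ < 2 * (⌊x⌋ + 1) := Int.floor_lt.2 (by push_cast; linarith [Int.lt_floor_add_one x])
      exact_mod_cast (by omega : ⌊2 * x⌋ + 1 ≤ 2 * (⌊x⌋ + 1))
    rw [div_le_iff₀ (by positivity), le_div_iff₀ (by positivity)] at hi
    rw [div_le_iff₀ h2, le_div_iff₀ h2]
    constructor <;> nlinarith [hi.1, hi.2]
  have hunion : U = ⋃ n, O n := by
    refine subset_antisymm (fun p hp => ?_) (Set.iUnion_subset fun n => hsubU _)
    obtain ⟨r, hr, hball⟩ := Metric.isOpen_iff.1 hU p hp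
    obtain ⟨n, hn⟩ := exists_pow_lt_of_lt_one hr (show (1:ℝ) / 2 < 1 by norm_num)
    refine Set.mem_iUnion.2 ⟨n, fun w hw => hball ?_⟩
    rw [Metric.mem_ball, Prod.dist_eq, dist_self, max_eq_right dist_nonneg, dist_pi_lt_iff hr]
    intro i
    have h1 := hw i trivial
    have h2 := hself (n + 3) p.2 i trivial
    simp only [Set.mem_Icc] at h1 h2
    have hlt : (1:ℝ) / 2 ^ (n + 3) < r := by
      refine lt_of_le_of_lt ?_ hn
      rw [div_pow, one_pow]
      gcongr <;> norm_num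
    rw [add_div] at h1 h2
    rw [Real.dist_eq, abs_lt]
    constructor <;> linarith [h1.1, h1.2, h2.1, h2.2]
  have hYm : ∀ n c, MeasurableSet (Y n c) := fun n c => (hYo n c).measurableSet
  have hpt : ∀ u, hitProb U u = ⨆ n, hitProb (O n) u := by
    intro u
    simp only [hitProb]
    rw [← Monotone.measure_iUnion]
    · congr 1; ext X; simp [hitSet, hunion]
    · intro i j hij X hX
      exact ⟨hmono hij hX.1, hX.2⟩
  simp only [hpt]
  rw [lintegral_iSup (fun n => measurable_hitProb (measurableSet_boxSet _ (hYm _)))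
    (fun i j hij u => measure_mono fun X hX => ⟨hmono hij hX.1, hX.2⟩)]
  refine iSup_le fun n => (slice_level h hl ha S (by omega) (hYm _)).trans ?_
  gcongr
  exact hsubU _

theorem slice {ν : Measure E} [IsFiniteMeasure ν] {K : ℝ≥0∞} {a : ℕ} (h : BallBound ν K a)
    (hK : K ≠ ⊤)
    {k l : ℕ} (hl : 1 ≤ l) (ha : l + 2 * k + 1 ≤ a) (S : Set E)
    (A : Set ((Fin k → E) × (Fin k → ℝ))) :
    ∫⁻ u in S, hitProb A u ∂ν
      ≤ refLaw E k A ^ ((l:ℝ) / (l + 1)) * sliceConst ν K k l a S ^ ((1:ℝ) / (l + 1)) := by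
  have key : ∀ r, refLaw E k A < r →
      ∫⁻ u in S, hitProb A u ∂ν
        ≤ r ^ ((l:ℝ) / (l + 1)) * sliceConst ν K k l a S ^ ((1:ℝ) / (l + 1)) := by
    intro r hr
    obtain ⟨U, hAU, hUo, hUr⟩ := Set.exists_isOpen_lt_of_lt A r hr
    refine le_trans (le_trans (lintegral_mono fun u => measure_mono fun X hX => ?_)
      (slice_open h hl ha S hUo)) (by gcongr)
    exact ⟨hAU hX.1, hX.2⟩
  haveI : (nhdsWithin (refLaw E k A) (Set.Ioi (refLaw E k A))).NeBot :=
    nhdsGT_neBot_of_exists_gt ⟨⊤, measure_lt_top _ _⟩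
  refine ge_of_tendsto (x := nhdsWithin (refLaw E k A) (Set.Ioi (refLaw E k A))) ?_
    (eventually_nhdsWithin_of_forall key)
  refine ENNReal.Tendsto.mul_const ?_ (Or.inr ?_)
  · exact (ENNReal.continuous_rpow_const.tendsto _).mono_left nhdsWithin_le_nhds
  · refine ENNReal.rpow_ne_top_of_nonneg (by positivity) ?_
    refine ENNReal.mul_ne_top (ENNReal.pow_ne_top ENNReal.ofReal_ne_top) (ENNReal.mul_ne_top
      (measure_ne_top _ _) (ENNReal.pow_ne_top (ENNReal.rpow_ne_top_of_nonneg (by norm_num) ?_)))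
    exact ENNReal.mul_ne_top (measure_ne_top _ _) (ENNReal.mul_ne_top hK ENNReal.ofReal_ne_top)

end Vale.Agent.P309
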