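import Mathlib
import Vale.Agent.P309.Slice

/-
Mass carried by points whose hitting probability is much larger than the reference probability.
-/

namespace Vale.Agent.P309

open MeasureTheory ProbabilityTheory Metric
open scoped RealInnerProductSpace ENNReal NNReal

variable {E : Type*} [NormedAddCommGroup E] [InnerProductSpace ℝ E] [FiniteDimensional ℝ E]
  [MeasurableSpace E] [BorelSpace E]

/-- real form of `C3` -/
noncomputable def C3r (k q a : ℕ) : ℝ := 1 + 2 * 9 ^ q * 3 ^ a * 4 ^ k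

lemma C3r_one_le (k q a : ℕ) : 1 ≤ C3r k q a := le_add_of_nonneg_right (by positivity)

lemma C3_eq (k q a : ℕ) : C3 k q a = ENNReal.ofReal (C3r k q a) := rfl

lemma slice_real {ν : Measure E} [IsFiniteMeasure ν] {K : ℝ} (hK : 0 ≤ K) {a : ℕ}
    (h : BallBound ν (ENNReal.ofReal K) a) {k l : ℕ} (hl : 1 ≤ l) (ha : l + 2 * k + 1 ≤ a)
    (S : Set E) (A : Set ((Fin k → E) × (Fin k → ℝ))) :
    (∫⁻ u in S, hitProb A u ∂ν).toReal
      ≤ (refLaw E k A).toReal ^ ((l:ℝ) / (l + 1))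
          * (64 ^ k * ((ν S).toReal * (K * C3r k l a)) ^ ((1:ℝ) / 2)) := by
  have hs := slice h ENNReal.ofReal_ne_top hl ha S A
  have hB : ν S * (ENNReal.ofReal K * C3 k l a)
      = ENNReal.ofReal ((ν S).toReal * (K * C3r k l a)) := by
    rw [C3_eq, ← ENNReal.ofReal_mul hK, ENNReal.ofReal_mul ENNReal.toReal_nonneg,
      ENNReal.ofReal_toReal (measure_ne_top _ _)]
  have hle : sliceConst ν (ENNReal.ofReal K) k l a S ^ ((1:ℝ) / (l + 1))
      ≤ ENNReal.ofReal (64 ^ k * ((ν S).toReal * (K * C3r k l a)) ^ ((1:ℝ) / 2)) := by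
    set x := (ν S).toReal with hx
    have hx0 : 0 ≤ x := ENNReal.toReal_nonneg
    set y := x * (K * C3r k l a) with hy
    have hy0 : 0 ≤ y := mul_nonneg hx0 (mul_nonneg hK (le_trans zero_le_one (C3r_one_le k l a)))
    have hxK : x ≤ K := by
      rw [hx]
      refine ENNReal.toReal_le_of_le_ofReal hK ((measure_mono (Set.subset_univ S)).trans h.mass)
    have hxy : x ≤ y ^ ((1:ℝ) / 2) := by
      rw [← Real.sqrt_eq_rpow, Real.le_sqrt hx0 hy0, hy, sq]
      exact mul_le_mul_of_nonneg_left (hxK.trans (le_mul_of_one_le_right hK (C3r_one_le k l a))) hx0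
    rw [sliceConst, hB, ENNReal.ofReal_rpow_of_nonneg hy0 (by norm_num),
      ← ENNReal.ofReal_pow (by positivity), ← ENNReal.ofReal_pow (by positivity),
      ← ENNReal.ofReal_toReal (measure_ne_top ν S), ← hx, ← ENNReal.ofReal_mul hx0,
      ← ENNReal.ofReal_mul (by positivity), ENNReal.ofReal_rpow_of_nonneg (by positivity)
        (by positivity)]
    refine ENNReal.ofReal_le_ofReal ?_
    calc ((64:ℝ) ^ (k * l) * (x * (y ^ ((1:ℝ) / 2)) ^ l)) ^ ((1:ℝ) / (l + 1))
        ≤ ((64 ^ k * y ^ ((1:ℝ) / 2)) ^ (l + 1)) ^ ((1:ℝ) / (l + 1)) := by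
          refine Real.rpow_le_rpow (by positivity) ?_ (by positivity)
          rw [mul_pow, ← pow_mul, pow_succ' (y ^ ((1:ℝ) / 2))]
          gcongr
          · norm_num
          · omega
      _ = _ := by
          rw [one_div ((l:ℝ) + 1), show ((l:ℝ) + 1) = ((l + 1 : ℕ) : ℝ) by push_cast; ring,
            Real.pow_rpow_inv_natCast (by positivity) (by omega)]
  refine ENNReal.toReal_le_of_le_ofReal ?_ (hs.trans ?_)
  · exact mul_nonneg (Real.rpow_nonneg ENNReal.toReal_nonneg _) (mul_nonneg (by positivity)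
      (Real.rpow_nonneg (mul_nonneg ENNReal.toReal_nonneg
        (mul_nonneg hK (le_trans zero_le_one (C3r_one_le k l a)))) _))
  · rw [ENNReal.ofReal_mul (Real.rpow_nonneg ENNReal.toReal_nonneg _),
      ← ENNReal.ofReal_rpow_of_nonneg ENNReal.toReal_nonneg (by positivity),
      ENNReal.ofReal_toReal (measure_ne_top _ _)]
    gcongr

lemma slice_bad {ν : Measure E} [IsFiniteMeasure ν] {K : ℝ} (hK : 0 ≤ K) {a : ℕ}
    (h : BallBound ν (ENNReal.ofReal K) a) {k l : ℕ} (hl : 1 ≤ l) (ha : l + 2 * k + 1 ≤ a)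
    {A : Set ((Fin k → E) × (Fin k → ℝ))} (hA : MeasurableSet A) {Λ : ℝ} (hΛ : 0 < Λ) :
    (∫⁻ u in {u | ENNReal.ofReal Λ * refLaw E k A < hitProb A u}, hitProb A u ∂ν).toReal * Λ
      ≤ (refLaw E k A).toReal ^ (((l:ℝ) - 1) / (l + 1)) * 4096 ^ k * K * C3r k l a := by
  set S := {u | ENNReal.ofReal Λ * refLaw E k A < hitProb A u}
  set q := (refLaw E k A).toReal with hq
  set I := ∫⁻ u in S, hitProb A u ∂ν
  have hq0 : 0 ≤ q := ENNReal.toReal_nonneg
  have hC : 0 ≤ C3r k l a := le_trans zero_le_one (C3r_one_le k l a)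
  have hIfin : I ≠ ⊤ := by
    refine ne_top_of_le_ne_top (measure_ne_top ν S) ?_
    calc I ≤ ∫⁻ _u in S, 1 ∂ν := lintegral_mono fun u => hitProb_le_one A u
      _ = ν S := by simp
  have hlow : Λ * q * (ν S).toReal ≤ I.toReal := by
    have h1 : ENNReal.ofReal Λ * refLaw E k A * ν S ≤ I := by
      rw [← setLIntegral_const]
      exact setLIntegral_mono (measurable_hitProb hA) fun u hu => le_of_lt hu
    have h2 := ENNReal.toReal_mono hIfin h1
    rwa [ENNReal.toReal_mul, ENNReal.toReal_mul, ENNReal.toReal_ofReal hΛ.le] at h2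
  have hup := slice_real hK h hl ha S A
  rw [← hq] at hup
  set θ : ℝ := (l:ℝ) / (l + 1) with hθ
  have hθ1 : ((l:ℝ) - 1) / (l + 1) = 2 * θ - 1 := by rw [hθ]; field_simp; ring
  rw [hθ1]
  change I.toReal ≤ _ at hup
  set x := (ν S).toReal
  have hI0 : 0 ≤ I.toReal := ENNReal.toReal_nonneg
  have hrhs : 0 ≤ q ^ (2 * θ - 1) * 4096 ^ k * K * C3r k l a := by positivity
  rcases hI0.eq_or_lt with hI | hI
  · rw [← hI, zero_mul]; exact hrhs
  rcases hq0.eq_or_lt with hqz | hqz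
  · exfalso
    have : q ^ θ = 0 := by
      rw [← hqz, Real.zero_rpow]
      have : (0:ℝ) < l := by exact_mod_cast hl
      positivity
    rw [this, zero_mul] at hup
    linarith
  have hy : 0 ≤ x * (K * C3r k l a) := by positivity
  have hsq : I.toReal ^ 2 ≤ q ^ (2 * θ) * 4096 ^ k * (x * (K * C3r k l a)) := by
    refine (pow_le_pow_left₀ hI0 hup 2).trans (le_of_eq ?_)
    rw [mul_pow, mul_pow, ← Real.rpow_natCast (q ^ θ) 2, ← Real.rpow_mul hq0,
      ← Real.rpow_natCast ((x * (K * C3r k l a)) ^ ((1:ℝ) / 2)) 2, ← Real.rpow_mul hy,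
      ← pow_mul, mul_comm k 2, pow_mul]
    norm_num
    rw [mul_comm θ 2]; ring
  have hfin : I.toReal * (Λ * q) * I.toReal
      ≤ (q ^ (2 * θ) * 4096 ^ k * K * C3r k l a) * I.toReal := by
    calc I.toReal * (Λ * q) * I.toReal = (Λ * q) * I.toReal ^ 2 := by ring
      _ ≤ (Λ * q) * (q ^ (2 * θ) * 4096 ^ k * (x * (K * C3r k l a))) := by gcongr
      _ = (q ^ (2 * θ) * 4096 ^ k * K * C3r k l a) * (Λ * q * x) := by ring
      _ ≤ _ := by gcongr
  have hfin' := le_of_mul_le_mul_right hfin hI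
  rw [Real.rpow_sub_one hqz.ne', div_mul_eq_mul_div, div_mul_eq_mul_div, div_mul_eq_mul_div,
    le_div_iff₀ hqz]
  linarith

/-- `q^{(l-1)/(l+1)}` against a linear function of `q` -/
lemma rpow_linear {q G N : ℝ} {l : ℕ} (hq : 0 ≤ q) (hN : 1 ≤ N) (hG : 0 ≤ G) (hl : 1 ≤ l)
    (hNG : N ^ 2 ≤ G ^ (l + 1)) :
    q ^ (((l:ℝ) - 1) / (l + 1)) ≤ G * (q + 1 / N) := by
  have hN0 : 0 < N := by linarith
  have hl' : (1:ℝ) ≤ l := by exact_mod_cast hl
  set e : ℝ := ((l:ℝ) - 1) / (l + 1) with he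
  have he0 : 0 ≤ e := div_nonneg (by linarith) (by linarith)
  have he1 : e ≤ 1 := by rw [he, div_le_one (by linarith)]; linarith
  have hNle : N ^ (1 - e) ≤ G := by
    have h1 : 1 - e = (2:ℝ) * ((((l + 1 : ℕ)) : ℝ))⁻¹ := by
      rw [he]; push_cast; field_simp; ring
    rw [h1, Real.rpow_mul hN0.le]
    refine (Real.rpow_le_rpow (by positivity) ?_ (by positivity)).trans
      (le_of_eq (Real.pow_rpow_inv_natCast hG (by omega)))
    calc N ^ (2:ℝ) = N ^ (2:ℕ) := by norm_cast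
      _ ≤ _ := hNG
  by_cases hqN : q ≤ 1 / N
  · calc q ^ e ≤ (1 / N) ^ e := Real.rpow_le_rpow hq hqN he0
      _ = (1 / N) * N ^ (1 - e) := by
          rw [Real.rpow_sub hN0, Real.rpow_one, Real.div_rpow zero_le_one hN0.le, Real.one_rpow]
          field_simp
      _ ≤ (1 / N) * G := by gcongr
      _ ≤ _ := by nlinarith
  · push Not at hqN
    have hq0 : 0 < q := lt_trans (by positivity) hqN
    calc q ^ e = q * (1 / q) ^ (1 - e) := by
          rw [Real.div_rpow zero_le_one hq0.le, Real.one_rpow, Real.rpow_sub hq0, Real.rpow_one]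
          field_simp
      _ ≤ q * N ^ (1 - e) := by
          refine mul_le_mul_of_nonneg_left (Real.rpow_le_rpow (by positivity) ?_ (by linarith)) hq
          rw [div_le_iff₀ hq0]
          rw [div_lt_iff₀ hN0] at hqN
          linarith
      _ ≤ q * G := by gcongr
      _ ≤ _ := by nlinarith [mul_nonneg hG (one_div_nonneg.2 hN0.le)]

end Vale.Agent.P309
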