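import Mathlib

/-
Definitions used by the P309 statement: uniform law on the sphere and the run of a learner.
-/

namespace Vale.Agent.P309

open MeasureTheory

/-- The uniform probability law on the unit sphere of `ℝ^d`, as a measure on `ℝ^d`. -/
noncomputable def uniformSphere (d : ℕ) : Measure (EuclideanSpace ℝ (Fin d)) :=
  (((volume : Measure (EuclideanSpace ℝ (Fin d))).toSphere Set.univ)⁻¹ •
    (volume : Measure (EuclideanSpace ℝ (Fin d))).toSphere).map Subtype.val

/-- State of a learner after `t` indices on the stream `x` with exact labels `⟨x t, s⟩`: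
a memory value in `Fin N` and a flag recording whether it has stopped. Once stopped it
never changes; otherwise the transition sees only the current memory, the index and the
current pair. -/
noncomputable def runState {d N : ℕ}
    (step : ℕ → Fin N → EuclideanSpace ℝ (Fin d) → ℝ → Fin N × Bool) (q0 : Fin N)
    (s : EuclideanSpace ℝ (Fin d)) (x : ℕ → EuclideanSpace ℝ (Fin d)) : ℕ → Fin N × Bool
  | 0 => (q0, false)
  | t + 1 =>
    let p := runState step q0 s x t
    if p.2 then p else step t p.1 (x t) (inner ℝ (x t) s)

/-- The memory value of the learner after the `T` rows `X` (or earlier, if it stopped). -/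
noncomputable def finalState {d N : ℕ}
    (step : ℕ → Fin N → EuclideanSpace ℝ (Fin d) → ℝ → Fin N × Bool) (q0 : Fin N)
    (s : EuclideanSpace ℝ (Fin d)) {T : ℕ} (X : Fin T → EuclideanSpace ℝ (Fin d)) : Fin N :=
  (runState step q0 s (fun t => if h : t < T then X ⟨t, h⟩ else 0) T).1

end Vale.Agent.P309
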