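import Mathlib

/-
Splitting a measure into pieces that are genuinely `a`-dimensional at the scale of their support.
-/

namespace Vale.Agent.P309

open MeasureTheory Metric
open scoped ENNReal

variable {E : Type*} [NormedAddCommGroup E] [MeasurableSpace E] [BorelSpace E]

/-- `μ` lives in a ball of radius `r` around `x`, has an `a`-dimensional ball bound relative to its
mass, and has mass at least `η m r^a / (2 R^a)`. -/
structure Piece (μ : Measure E) (x : E) (r : ℝ) (a : ℕ) (low : ℝ) : Prop where
  pos : 0 < r
  supp : μ (closedBall x r)ᶜ = 0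
  ball : ∀ y, ∀ ρ : ℝ, 0 < ρ →
    μ (closedBall y ρ) ≤ ENNReal.ofReal (2 * (μ Set.univ).toReal * (ρ / r) ^ a)
  lower : low * r ^ a ≤ (μ Set.univ).toReal

lemma decompose {ν : Measure E} [IsFiniteMeasure ν] {c : E} {R Ψ η : ℝ} {a D : ℕ}
    (hR : 0 < R) (hΨ : 0 < Ψ) (hη : 0 < η) (haD : a < D)
    (hsupp : ν (closedBall c R)ᶜ = 0)
    (hball : ∀ x, ∀ r : ℝ, 0 < r → ν (closedBall x r) ≤ ENNReal.ofReal (Ψ * r ^ D))
    (W : E → ℝ≥0∞) (hW : ∀ s, W s ≤ 1) {β : ℝ} (hβ : 0 ≤ β)
    (hpiece : ∀ (P : Set E), MeasurableSet P → ∀ x r,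
      Piece (ν.restrict P) x r a (η * (ν Set.univ).toReal / (2 * R ^ a)) →
        ∫⁻ s in P, W s ∂ν ≤ ENNReal.ofReal β * ν P) :
    ∫⁻ s, W s ∂ν ≤ ENNReal.ofReal (β + η) * ν Set.univ := by
  set M := (ν Set.univ).toReal with hM
  have hMν : ν Set.univ = ENNReal.ofReal M := (ENNReal.ofReal_toReal (measure_ne_top _ _)).symm
  rcases (ENNReal.toReal_nonneg (a := ν Set.univ)).eq_or_lt with hM0 | hM0
  · have : ν Set.univ = 0 := by rw [hMν, hM, ← hM0, ENNReal.ofReal_zero]
    rw [Measure.measure_univ_eq_zero.1 this]; simp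
  change 0 < M at hM0
  set κ := η * M / (2 * R ^ a) with hκ
  have hκ0 : 0 < κ := by positivity
  set r0 := min 1 (κ / Ψ) with hr0
  have hr00 : 0 < r0 := lt_min one_pos (by positivity)
  set m0 := κ * r0 ^ a with hm0
  have hm00 : 0 < m0 := by positivity
  have key : ∀ n : ℕ, ∀ T : Set E, MeasurableSet T → (ν T).toReal ≤ η * M + n * m0 →
      ∫⁻ s in T, W s ∂ν ≤ ENNReal.ofReal β * ν T + ENNReal.ofReal (η * M) := by
    intro n
    induction n with
    | zero =>
      intro T _ hle
      refine le_trans ?_ le_add_self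
      rw [Nat.cast_zero, zero_mul, add_zero] at hle
      calc ∫⁻ s in T, W s ∂ν ≤ ∫⁻ _s in T, 1 ∂ν := lintegral_mono hW
        _ = ν T := setLIntegral_one T
        _ ≤ _ := by rw [← ENNReal.ofReal_toReal (measure_ne_top ν T)]; exact ENNReal.ofReal_le_ofReal hle
    | succ n ih =>
      intro T hT hle
      by_cases hsmall : (ν T).toReal ≤ η * M
      · exact ih T hT (hsmall.trans (le_add_of_nonneg_right (by positivity)))
      push Not at hsmall
      set F : E × Set.Ioi (0:ℝ) → ℝ :=
        fun p => (ν (T ∩ closedBall p.1 p.2)).toReal / (p.2 : ℝ) ^ a with hF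
      have hcR : F (c, ⟨R, hR⟩) = (ν T).toReal / R ^ a := by
        simp only [hF]
        congr 2
        exact measure_inter_conull hsupp
      have hbdd : BddAbove (Set.range F) := by
        refine ⟨max (Ψ * R ^ (D - a)) (M / R ^ a), ?_⟩
        rintro _ ⟨⟨x, r, hr⟩, rfl⟩
        have hr' : (0:ℝ) < r := hr
        simp only [hF]
        by_cases hrR : r ≤ R
        · refine le_trans ?_ (le_max_left _ _)
          have h1 : (ν (T ∩ closedBall x r)).toReal ≤ Ψ * r ^ D :=
            ENNReal.toReal_le_of_le_ofReal (by positivity)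
              ((measure_mono Set.inter_subset_right).trans (hball x r hr'))
          rw [div_le_iff₀ (pow_pos hr' a)]
          calc _ ≤ Ψ * r ^ D := h1
            _ = Ψ * r ^ (D - a) * r ^ a := by rw [mul_assoc, ← pow_add, Nat.sub_add_cancel haD.le]
            _ ≤ _ := by gcongr
        · refine le_trans ?_ (le_max_right _ _)
          push Not at hrR
          gcongr
          exact ENNReal.toReal_mono (measure_ne_top ν _) (measure_mono (Set.subset_univ _))
      haveI : Nonempty (E × Set.Ioi (0:ℝ)) := ⟨(c, ⟨R, hR⟩)⟩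
      have hRa : 0 < R ^ a := pow_pos hR a
      have hsup_pos : 0 < ⨆ p, F p := by
        refine lt_of_lt_of_le ?_ (le_ciSup hbdd (c, ⟨R, hR⟩))
        rw [hcR]
        exact div_pos (lt_of_le_of_lt (by positivity) hsmall) hRa
      obtain ⟨⟨x, r, hr⟩, hxr⟩ := exists_lt_of_lt_ciSup (half_lt_self hsup_pos)
      have hr' : (0:ℝ) < r := hr
      set P := T ∩ closedBall x r
      have hPm : MeasurableSet P := hT.inter measurableSet_closedBall
      set m := (ν P).toReal with hm
      have hmF : (⨆ p, F p) / 2 * r ^ a ≤ m := by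
        have := hxr.le
        simp only [hF] at this
        rwa [le_div_iff₀ (pow_pos hr' a)] at this
      have hlow : κ * r ^ a ≤ m := by
        refine le_trans ?_ hmF
        gcongr
        rw [hκ, ← div_div, div_right_comm]
        gcongr
        refine le_trans ?_ (le_ciSup hbdd (c, ⟨R, hR⟩))
        rw [hcR]
        gcongr
      have hpc : Piece (ν.restrict P) x r a κ := by
        refine ⟨hr', ?_, fun y ρ hρ => ?_, by rwa [Measure.restrict_apply_univ]⟩
        · rw [Measure.restrict_apply measurableSet_closedBall.compl]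
          have : (closedBall x r)ᶜ ∩ P = ∅ := by
            ext z; simp only [P, Set.mem_inter_iff, Set.mem_compl_iff, Set.mem_empty_iff_false]; tauto
          rw [this, measure_empty]
        · rw [Measure.restrict_apply measurableSet_closedBall, Measure.restrict_apply_univ, ← hm,
            ← ENNReal.ofReal_toReal (measure_ne_top ν (closedBall y ρ ∩ P))]
          refine ENNReal.ofReal_le_ofReal ?_
          have h1 : (ν (closedBall y ρ ∩ P)).toReal ≤ (ν (T ∩ closedBall y ρ)).toReal :=
            ENNReal.toReal_mono (measure_ne_top _ _)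
              (measure_mono fun z hz => ⟨hz.2.1, hz.1⟩)
          have h2 := le_ciSup hbdd (y, ⟨ρ, hρ⟩)
          simp only [hF, div_le_iff₀ (pow_pos hρ a)] at h2
          refine h1.trans (h2.trans ?_)
          rw [div_pow, mul_div_assoc', le_div_iff₀ (pow_pos hr' a)]
          calc _ = ((⨆ p, F p) / 2 * r ^ a) * (2 * ρ ^ a) := by ring
            _ ≤ m * (2 * ρ ^ a) := by gcongr
            _ = _ := by ring
      have hm0m : m0 ≤ m := by
        refine le_trans ?_ hlow
        rw [hm0]
        gcongr
        by_cases hr1 : 1 ≤ r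
        · exact le_trans (min_le_left _ _) hr1
        · push Not at hr1
          refine le_trans (min_le_right _ _) ?_
          have h1 : m ≤ Ψ * r ^ D := ENNReal.toReal_le_of_le_ofReal (by positivity)
            ((measure_mono Set.inter_subset_right).trans (hball x r hr'))
          have h2 : r ^ D ≤ r * r ^ a := by
            rw [← pow_succ']; exact pow_le_pow_of_le_one hr'.le hr1.le (by omega)
          rw [div_le_iff₀ hΨ]
          refine le_of_mul_le_mul_right ?_ (pow_pos hr' a)
          calc κ * r ^ a ≤ Ψ * r ^ D := hlow.trans h1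
            _ ≤ Ψ * (r * r ^ a) := by gcongr
            _ = r * Ψ * r ^ a := by ring
      have hsplit : ν T = ν P + ν (T \ closedBall x r) :=
        (measure_inter_add_sdiff T measurableSet_closedBall).symm
      have hrest : (ν (T \ closedBall x r)).toReal ≤ η * M + n * m0 := by
        have := congrArg ENNReal.toReal hsplit
        rw [ENNReal.toReal_add (measure_ne_top _ _) (measure_ne_top _ _), ← hm] at this
        push_cast at hle
        linarith
      have h1 := hpiece P hPm x r hpc
      have h2 := ih _ (hT.diff measurableSet_closedBall) hrest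
      rw [hsplit, mul_add, add_assoc, ← lintegral_inter_add_sdiff W T measurableSet_closedBall]
      exact add_le_add h1 h2
  obtain ⟨n, hn⟩ := exists_nat_ge (M / m0)
  have := key n Set.univ MeasurableSet.univ (by
    rw [div_le_iff₀ hm00] at hn
    nlinarith [mul_pos hη hM0])
  rw [setLIntegral_univ] at this
  refine this.trans (le_of_eq ?_)
  rw [hMν, ENNReal.ofReal_add hβ hη.le, add_mul, ENNReal.ofReal_mul hη.le]

end Vale.Agent.P309
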