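import Mathlib
import Vale.Agent.P309.Bad
import Vale.Agent.P309.Decompose

/-
Backward induction over blocks of samples.
-/

namespace Vale.Agent.P309

open MeasureTheory ProbabilityTheory Metric
open scoped RealInnerProductSpace ENNReal NNReal

variable {E : Type*} [NormedAddCommGroup E] [InnerProductSpace ℝ E] [FiniteDimensional ℝ E]
  [MeasurableSpace E] [BorelSpace E] {N : ℕ}

/-- success probability of `n` more steps from state `q` at index `t`, given the signal -/
noncomputable def value (step : ℕ → Fin N → E → ℝ → Fin N) (out : Fin N → E) (ε : ℝ) :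
    ℕ → ℕ → Fin N → E → ℝ≥0∞
  | 0, _, q, s => (closedBall (out q) ε).indicator 1 s
  | n + 1, t, q, s =>
    ∫⁻ x, value step out ε n (t + 1) (step t q x ⟪x, s⟫) s ∂stdGaussian E

/-- state after a block -/
def blockState (step : ℕ → Fin N → E → ℝ → Fin N) :
    ∀ k : ℕ, ℕ → Fin N → (Fin k → E) → (Fin k → ℝ) → Fin N
  | 0, _, q, _, _ => q
  | k + 1, t, q, X, w =>
    blockState step k (t + 1) (step t q (X 0) (w 0)) (Fin.tail X) (Fin.tail w)

variable {step : ℕ → Fin N → E → ℝ → Fin N} {out : Fin N → E} {ε : ℝ}

lemma measurable_value (hstep : ∀ t q, Measurable fun p : E × ℝ => step t q p.1 p.2) :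
    ∀ n t q, Measurable (value step out ε n t q) := by
  intro n
  induction n with
  | zero => intro t q; exact measurable_one.indicator measurableSet_closedBall
  | succ n ih =>
    intro t q
    have h1 : Measurable fun p : Fin N × E => value step out ε n (t + 1) p.1 p.2 :=
      measurable_from_prod_countable_right fun q' => ih (t + 1) q'
    have h2 : Measurable fun p : E × E => (step t q p.2 ⟪p.2, p.1⟫, p.1) :=
      ((hstep t q).comp (f := fun p : E × E => (p.2, ⟪p.2, p.1⟫)) (by fun_prop)).prodMk
        measurable_fst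
    exact Measurable.lintegral_prod_right' (h1.comp h2)

lemma value_le_one : ∀ n t q s, value step out ε n t q s ≤ 1 := by
  intro n
  induction n with
  | zero => intro t q s; exact Set.indicator_le_self' (fun _ _ => zero_le) s
  | succ n ih =>
    intro t q s
    calc _ ≤ ∫⁻ _x, (1:ℝ≥0∞) ∂stdGaussian E := lintegral_mono fun x => ih _ _ _
      _ = 1 := by simp

lemma measurable_blockState (hstep : ∀ t q, Measurable fun p : E × ℝ => step t q p.1 p.2) :
    ∀ k t q, Measurable fun p : (Fin k → E) × (Fin k → ℝ) => blockState step k t q p.1 p.2 := by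
  intro k
  induction k with
  | zero => intro t q; exact measurable_const
  | succ k ih =>
    intro t q
    have h1 : Measurable fun p : Fin N × ((Fin k → E) × (Fin k → ℝ)) =>
        blockState step k (t + 1) p.1 p.2.1 p.2.2 :=
      measurable_from_prod_countable_right fun q' => ih (t + 1) q'
    have h2 : Measurable fun p : (Fin (k + 1) → E) × (Fin (k + 1) → ℝ) =>
        (step t q (p.1 0) (p.2 0), (Fin.tail p.1, Fin.tail p.2)) :=
      ((hstep t q).comp (f := fun p : (Fin (k + 1) → E) × (Fin (k + 1) → ℝ) => (p.1 0, p.2 0))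
        (by fun_prop)).prodMk (by unfold Fin.tail; fun_prop)
    exact h1.comp h2

lemma value_block (hstep : ∀ t q, Measurable fun p : E × ℝ => step t q p.1 p.2) (n : ℕ) :
    ∀ k t q s, value step out ε (n + k) t q s
      = ∫⁻ X, value step out ε n (t + k) (blockState step k t q X (labels X s)) s
          ∂rowsLaw E k := by
  intro k
  induction k with
  | zero =>
    intro t q s
    simp [blockState, rowsLaw]
  | succ k ih =>
    intro t q s
    have hmp := measurePreserving_piFinSuccAbove (fun _ : Fin (k + 1) => stdGaussian E) 0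
    have hm : Measurable fun X : Fin (k + 1) → E =>
        value step out ε n (t + (k + 1)) (blockState step (k + 1) t q X (labels X s)) s := by
      have h1 : Measurable fun q' : Fin N => value step out ε n (t + (k + 1)) q' s :=
        measurable_of_countable _
      exact h1.comp ((measurable_blockState hstep (k + 1) t q).comp
        (f := fun X : Fin (k + 1) → E => (X, labels X s)) (by unfold labels; fun_prop))
    rw [rowsLaw, ← hmp.symm.lintegral_comp hm]
    refine Eq.trans ?_ (lintegral_prod _ (hm.comp (MeasurableEquiv.measurable _)).aemeasurable).symm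
    show ∫⁻ x, value step out ε (n + k) (t + 1) (step t q x ⟪x, s⟫) s ∂stdGaussian E = _
    refine lintegral_congr fun x => ?_
    rw [ih]
    refine lintegral_congr fun Y => ?_
    simp only [MeasurableEquiv.piFinSuccAbove_symm_apply, Fin.insertNthEquiv_apply,
      Fin.insertNth_zero', blockState, Fin.cons_zero, Fin.tail_cons, labels]
    rw [show t + 1 + k = t + (k + 1) by omega]
    congr 1

/-- the set of `(X,w)` leading to state `z` in coordinates centred at `x` with radius `r` -/
def stateSet (step : ℕ → Fin N → E → ℝ → Fin N) (k t : ℕ) (q z : Fin N) (x : E) (r : ℝ) :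
    Set ((Fin k → E) × (Fin k → ℝ)) :=
  {p | blockState step k t q p.1 (labels p.1 x + r • p.2) = z}

lemma measurableSet_stateSet (hstep : ∀ t q, Measurable fun p : E × ℝ => step t q p.1 p.2)
    (k t : ℕ) (q z : Fin N) (x : E) (r : ℝ) : MeasurableSet (stateSet step k t q z x r) :=
  measurableSet_preimage ((measurable_blockState hstep k t q).comp
    (f := fun p : (Fin k → E) × (Fin k → ℝ) => (p.1, labels p.1 x + r • p.2))
    (by unfold labels; fun_prop)) (measurableSet_singleton z)

lemma sum_stateSet (hstep : ∀ t q, Measurable fun p : E × ℝ => step t q p.1 p.2)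
    (k t : ℕ) (q : Fin N) (x : E) (r : ℝ) :
    ∑ z, refLaw E k (stateSet step k t q z x r) = 1 := by
  rw [← measure_biUnion_finset (fun z _ z' _ hne => Set.disjoint_left.2 fun p h h' =>
    hne (h.symm.trans h')) (fun z _ => measurableSet_stateSet hstep k t q z x r)]
  have : ⋃ z ∈ (Finset.univ : Finset (Fin N)), stateSet step k t q z x r = Set.univ := by
    ext p; simp [stateSet]
  rw [this, measure_univ]

lemma sum_hitProb_le (hstep : ∀ t q, Measurable fun p : E × ℝ => step t q p.1 p.2)
    (k t : ℕ) (q : Fin N) (x : E) (r : ℝ) (u : E) :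
    ∑ z, hitProb (stateSet step k t q z x r) u ≤ 1 := by
  unfold hitProb
  rw [← measure_biUnion_finset (fun z _ z' _ hne => Set.disjoint_left.2 fun p h h' =>
    hne (by
      have h1 := h.1
      have h2 := h'.1
      simp only [stateSet, Set.mem_ofPred_eq] at h1 h2
      rw [← h1, ← h2])) (fun z _ => measurableSet_preimage (by fun_prop)
      (measurableSet_hitSet (measurableSet_stateSet hstep k t q z x r)))]
  exact prob_le_one

lemma value_piece_pointwise (hstep : ∀ t q, Measurable fun p : E × ℝ => step t q p.1 p.2)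
    (n k t : ℕ) (q : Fin N) {x : E} {r : ℝ} (hr : 0 < r) {s : E} (hs : s ∈ closedBall x r) :
    value step out ε (n + k) t q s
      ≤ (∑ z, hitProb (stateSet step k t q z x r) (r⁻¹ • (s - x))
          * value step out ε n (t + k) z s) + ENNReal.ofReal ((3 / 4) ^ k) := by
  classical
  set u := r⁻¹ • (s - x)
  have hu : ‖u‖ ≤ 1 := by
    rw [mem_closedBall, dist_eq_norm] at hs
    rw [norm_smul, norm_inv, Real.norm_eq_abs, abs_of_pos hr, inv_mul_le_iff₀ hr]
    linarith
  have hlab : ∀ X : Fin k → E, labels X s = labels X x + r • labels X u := by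
    intro X; funext i
    simp only [labels, Pi.add_apply, Pi.smul_apply, smul_eq_mul, u, real_inner_smul_right,
      inner_sub_right]
    field_simp
    ring
  have hH : ∀ z, MeasurableSet ((fun X => (X, u)) ⁻¹' hitSet (stateSet step k t q z x r)) :=
    fun z => measurableSet_preimage (by fun_prop)
      (measurableSet_hitSet (measurableSet_stateSet hstep k t q z x r))
  have hB : MeasurableSet {X : Fin k → E | 4 * (k : ℝ) < ∑ i, ⟪X i, u⟫ ^ 2} :=
    measurableSet_lt measurable_const (by fun_prop)
  rw [value_block hstep]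
  calc ∫⁻ X, value step out ε n (t + k) (blockState step k t q X (labels X s)) s ∂rowsLaw E k
      ≤ ∫⁻ X, ((∑ z, ((fun X => (X, u)) ⁻¹' hitSet (stateSet step k t q z x r)).indicator
            (fun _ => value step out ε n (t + k) z s) X)
          + {X : Fin k → E | 4 * (k : ℝ) < ∑ i, ⟪X i, u⟫ ^ 2}.indicator 1 X) ∂rowsLaw E k := by
        refine lintegral_mono fun X => ?_
        by_cases hb : ∑ i, ⟪X i, u⟫ ^ 2 ≤ 4 * (k : ℝ)
        · refine le_trans (le_trans (le_of_eq ?_) (Finset.single_le_sum (fun z _ => zero_le)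
            (Finset.mem_univ (blockState step k t q X (labels X s))))) le_self_add
          rw [Set.indicator_of_mem]
          refine ⟨?_, hb⟩
          show blockState step k t q X (labels X x + r • labels X u) = _
          rw [hlab]
        · refine le_trans ?_ le_add_self
          rw [Set.indicator_of_mem (show X ∈ {X : Fin k → E | 4 * (k : ℝ) < ∑ i, ⟪X i, u⟫ ^ 2}
            from not_le.1 hb)]
          exact value_le_one _ _ _ _
    _ = (∑ z, hitProb (stateSet step k t q z x r) u * value step out ε n (t + k) z s)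
          + rowsLaw E k {X : Fin k → E | 4 * (k : ℝ) < ∑ i, ⟪X i, u⟫ ^ 2} := by
        rw [lintegral_add_right _ (measurable_one.indicator hB), lintegral_indicator_one hB,
          lintegral_finsetSum _ fun z _ => measurable_const.indicator (hH z)]
        congr 1
        refine Finset.sum_congr rfl fun z _ => ?_
        rw [lintegral_indicator_const (hH z), mul_comm]
        rfl
    _ ≤ _ := by
        gcongr
        exact chi_tail hu

/-- threshold factor -/
noncomputable def Lam (k l a : ℕ) (G η : ℝ) : ℝ := 4 * G * 4096 ^ k * C3r k l a / η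

/-- growth of the potential per block -/
noncomputable def Gam (k l a : ℕ) (G η : ℝ) : ℝ := 2 * Lam k l a G η / η ^ 2

lemma bad_sum [NeZero N] (hstep : ∀ t q, Measurable fun p : E × ℝ => step t q p.1 p.2)
    {k l a : ℕ} (hl : 1 ≤ l) (ha : l + 2 * k + 1 ≤ a) {G η : ℝ} (hG : 1 ≤ G)
    (hNG : (N:ℝ) ^ 2 ≤ G ^ (l + 1)) (hη : 0 < η) (t : ℕ) (q : Fin N) (x : E) (r : ℝ)
    {ν : Measure E} [IsFiniteMeasure ν] {m : ℝ} (hm : 0 ≤ m)
    (h : BallBound ν (ENNReal.ofReal (2 * m)) a) :
    ∑ z, ∫⁻ u in {u | ENNReal.ofReal (Lam k l a G η) * refLaw E k (stateSet step k t q z x r)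
          < hitProb (stateSet step k t q z x r) u}, hitProb (stateSet step k t q z x r) u ∂ν
      ≤ ENNReal.ofReal (η * m) := by
  have hC : (1:ℝ) ≤ C3r k l a := C3r_one_le k l a
  have hG0 : 0 < G := by linarith
  have hΛ : 0 < Lam k l a G η := by unfold Lam; positivity
  have hN : (1:ℝ) ≤ N := by exact_mod_cast NeZero.one_le
  set qz := fun z => (refLaw E k (stateSet step k t q z x r)).toReal with hqz
  have hone : ∀ z, (∫⁻ u in {u | ENNReal.ofReal (Lam k l a G η) * refLaw E k (stateSet step k t q z x r)
          < hitProb (stateSet step k t q z x r) u}, hitProb (stateSet step k t q z x r) u ∂ν)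
      ≤ ENNReal.ofReal (G * (qz z + 1 / N) * (η * m / (2 * G))) := by
    intro z
    have hb := slice_bad (by linarith : (0:ℝ) ≤ 2 * m) h hl ha
      (measurableSet_stateSet hstep k t q z x r) hΛ
    refine (ENNReal.le_ofReal_iff_toReal_le ?_ ?_).2 ?_
    · refine ne_top_of_le_ne_top (measure_ne_top ν Set.univ) ?_
      refine (setLIntegral_le_lintegral _ _).trans ?_
      calc _ ≤ ∫⁻ _u, 1 ∂ν := lintegral_mono fun u => hitProb_le_one _ u
        _ = _ := by simp
    · positivity
    · rw [← le_div_iff₀ hΛ] at hb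
      refine hb.trans ?_
      have hr := rpow_linear (l := l) (ENNReal.toReal_nonneg
        (a := refLaw E k (stateSet step k t q z x r))) hN hG0.le hl hNG
      calc _ ≤ G * (qz z + 1 / N) * 4096 ^ k * (2 * m) * C3r k l a / Lam k l a G η := by
            gcongr
        _ = _ := by unfold Lam; field_simp; ring
  refine (Finset.sum_le_sum fun z _ => hone z).trans ?_
  rw [← ENNReal.ofReal_sum_of_nonneg (fun z _ => by positivity)]
  refine ENNReal.ofReal_le_ofReal (le_of_eq ?_)
  have hs : ∑ z, qz z = 1 := by
    rw [hqz, ← ENNReal.toReal_sum (fun z _ => measure_ne_top _ _), sum_stateSet hstep,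
      ENNReal.toReal_one]
  rw [← Finset.sum_mul, ← Finset.mul_sum, Finset.sum_add_distrib, hs, Finset.sum_const,
    Finset.card_univ, Fintype.card_fin, nsmul_eq_mul]
  field_simp
  ring

lemma piece_bound [NeZero N] (hstep : ∀ t q, Measurable fun p : E × ℝ => step t q p.1 p.2)
    {k l a D : ℕ} (hl : 1 ≤ l) (ha : l + 2 * k + 1 ≤ a) {G η : ℝ} (hG : 1 ≤ G)
    (hNG : (N:ℝ) ^ 2 ≤ G ^ (l + 1)) (hη : η = (3 / 4) ^ k)
    {n : ℕ} {β Pold : ℝ} (hβ : 0 ≤ β) (hPold : 0 ≤ Pold)
    (ih : ∀ t q (ν : Measure E) [IsFiniteMeasure ν] (c : E) (R Ψ : ℝ), 0 < R → 0 < Ψ →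
      ν (closedBall c R)ᶜ = 0 →
      (∀ x, ∀ r : ℝ, 0 < r → ν (closedBall x r) ≤ ENNReal.ofReal (Ψ * r ^ D)) →
      Ψ * R ^ a ≤ Pold * Gam k l a G η * (ν Set.univ).toReal →
      ∫⁻ s, value step out ε n t q s ∂ν ≤ ENNReal.ofReal β * ν Set.univ)
    (t : ℕ) (q : Fin N) (μ : Measure E) [IsFiniteMeasure μ] {x : E} {r Ψ low : ℝ} (hΨ : 0 < Ψ)
    (hpc : Piece μ x r a low)
    (hball : ∀ y, ∀ ρ : ℝ, 0 < ρ → μ (closedBall y ρ) ≤ ENNReal.ofReal (Ψ * ρ ^ D))
    (hpot : Ψ * r ^ a * η ≤ 2 * Pold * (μ Set.univ).toReal) :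
    ∫⁻ s, value step out ε (n + k) t q s ∂μ ≤ ENNReal.ofReal (β + 3 * η) * μ Set.univ := by
  classical
  obtain ⟨hr, hsupp, hpball, -⟩ := hpc
  have hη0 : 0 < η := by rw [hη]; positivity
  have hG0 : 0 < G := by linarith
  set m := (μ Set.univ).toReal with hm
  have hm0 : 0 ≤ m := ENNReal.toReal_nonneg
  have hμm : μ Set.univ = ENNReal.ofReal m := (ENNReal.ofReal_toReal (measure_ne_top _ _)).symm
  set Λ := Lam k l a G η with hΛdef
  have hΛ : 0 < Λ := by
    have := C3r_one_le k l a
    rw [hΛdef]; unfold Lam; positivity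
  set T : E → E := fun s => r⁻¹ • (s - x) with hT
  have hTm : Measurable T := by fun_prop
  have hν : BallBound (μ.map T) (ENNReal.ofReal (2 * m)) a := by
    constructor
    · rw [Measure.map_apply hTm measurableSet_closedBall.compl]
      refine measure_mono_null (fun s hs => ?_) hsupp
      simp only [Set.mem_preimage, Set.mem_compl_iff, mem_closedBall, dist_zero_right, hT,
        dist_eq_norm, sub_zero, norm_smul, norm_inv, Real.norm_eq_abs, abs_of_pos hr] at hs ⊢
      intro h; exact hs (by rw [inv_mul_le_iff₀ hr]; linarith)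
    · intro y ρ hρ
      rw [Measure.map_apply hTm measurableSet_closedBall, ← ENNReal.ofReal_pow hρ.le,
        ← ENNReal.ofReal_mul (by positivity)]
      have hsub : T ⁻¹' closedBall y ρ ⊆ closedBall (x + r • y) (r * ρ) := by
        intro s hs
        simp only [Set.mem_preimage, mem_closedBall, dist_eq_norm, hT] at hs ⊢
        have : s - (x + r • y) = r • (r⁻¹ • (s - x) - y) := by
          rw [smul_sub, smul_smul, mul_inv_cancel₀ hr.ne', one_smul]; abel
        rw [this, norm_smul, Real.norm_eq_abs, abs_of_pos hr]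
        gcongr
      refine (measure_mono hsub).trans ((hpball _ _ (by positivity)).trans (le_of_eq ?_))
      rw [show r * ρ / r = ρ by field_simp]
  set A := fun z => stateSet step k t q z x r
  set qz := fun z => (refLaw E k (A z)).toReal with hqz
  set bad : Fin N → Set E := fun z => {u | ENNReal.ofReal Λ * refLaw E k (A z) < hitProb (A z) u}
  have hbadm : ∀ z, MeasurableSet (bad z) := fun z =>
    measurableSet_lt measurable_const (measurable_hitProb (measurableSet_stateSet hstep k t q z x r))
  set f : Fin N → E → ℝ≥0∞ := fun z s => (T ⁻¹' (bad z)ᶜ).indicator (fun s => hitProb (A z) (T s)) s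
  have hfm : ∀ z, Measurable (f z) := fun z =>
    ((measurable_hitProb (measurableSet_stateSet hstep k t q z x r)).comp hTm).indicator
      (hTm (hbadm z).compl)
  have hgm : ∀ z, Measurable (value step out ε n (t + k) z) := fun z => measurable_value hstep _ _ _
  have hbm : ∀ z, Measurable fun s => (T ⁻¹' bad z).indicator (fun s => hitProb (A z) (T s)) s :=
    fun z => ((measurable_hitProb (measurableSet_stateSet hstep k t q z x r)).comp hTm).indicator
      (hTm (hbadm z))
  -- pointwise split
  have hpt : ∀ᵐ s ∂μ, value step out ε (n + k) t q s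
      ≤ (∑ z, f z s * value step out ε n (t + k) z s)
        + (∑ z, (T ⁻¹' bad z).indicator (fun s => hitProb (A z) (T s)) s) + ENNReal.ofReal η := by
    have hae : ∀ᵐ s ∂μ, s ∈ closedBall x r := by
      rw [ae_iff]; exact hsupp
    refine hae.mono fun s hs => ?_
    refine (value_piece_pointwise hstep n k t q hr hs).trans ?_
    rw [← Finset.sum_add_distrib, ← hη]
    gcongr with z
    by_cases hb : s ∈ T ⁻¹' bad z
    · rw [Set.indicator_of_mem hb]
      exact le_trans (le_trans (mul_le_mul_right (value_le_one _ _ _ _) _) (mul_one _).le) le_add_self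
    · refine le_trans (le_of_eq ?_) le_self_add
      simp only [f, Set.indicator_of_mem (show s ∈ T ⁻¹' (bad z)ᶜ from hb), A, T]
  refine (lintegral_mono_ae hpt).trans ?_
  rw [lintegral_add_right _ measurable_const, lintegral_add_right _
      (Finset.measurable_sum _ fun z _ => hbm z),
    lintegral_finsetSum _ fun z _ => hbm z,
    lintegral_finsetSum (f := fun z s => f z s * value step out ε n (t + k) z s) Finset.univ
      fun z _ => (hfm z).mul (hgm z),
    lintegral_const]
  -- bad part
  have hbad : ∑ z, ∫⁻ s, (T ⁻¹' bad z).indicator (fun s => hitProb (A z) (T s)) s ∂μ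
      ≤ ENNReal.ofReal (η * m) := by
    refine le_trans (le_of_eq (Finset.sum_congr rfl fun z _ => ?_))
      (bad_sum hstep hl ha hG hNG hη0 t q x r (ν := μ.map T) hm0 hν)
    rw [lintegral_indicator (hTm (hbadm z)), setLIntegral_map (hbadm z)
      (measurable_hitProb (measurableSet_stateSet hstep k t q z x r)) hTm]
  -- good part
  have hgood : ∑ z, ∫⁻ s, f z s * value step out ε n (t + k) z s ∂μ
      ≤ ENNReal.ofReal (β + η) * μ Set.univ := by
    have hz : ∀ z, ∫⁻ s, f z s * value step out ε n (t + k) z s ∂μ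
        ≤ ENNReal.ofReal β * ∫⁻ s, f z s ∂μ + ENNReal.ofReal (η * qz z * m) := by
      intro z
      have hfle : ∀ s, f z s ≤ ENNReal.ofReal (Λ * qz z) := by
        intro s
        simp only [f]
        refine Set.indicator_apply_le' (fun hs => ?_) (fun _ => zero_le)
        rw [ENNReal.ofReal_mul hΛ.le, hqz, ENNReal.ofReal_toReal (measure_ne_top _ _)]
        exact not_lt.1 hs
      have hffin : ∫⁻ s, f z s ∂μ ≠ ⊤ := by
        refine ne_top_of_le_ne_top ?_ (lintegral_mono hfle)
        rw [lintegral_const]
        exact ENNReal.mul_ne_top ENNReal.ofReal_ne_top (measure_ne_top _ _)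
      by_cases hsmall : (∫⁻ s, f z s ∂μ).toReal ≤ η * qz z * m
      · refine le_trans ?_ le_add_self
        calc _ ≤ ∫⁻ s, f z s ∂μ := lintegral_mono fun s =>
              (mul_le_mul_right (value_le_one _ _ _ _) _).trans (mul_one _).le
          _ ≤ _ := by
              rw [← ENNReal.ofReal_toReal hffin]; exact ENNReal.ofReal_le_ofReal hsmall
      push Not at hsmall
      refine le_trans ?_ le_self_add
      have hqpos : 0 < qz z := by
        by_contra hh
        push Not at hh
        have h0 : ∫⁻ s, f z s ∂μ = 0 := by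
          refine le_antisymm ((lintegral_mono hfle).trans ?_) zero_le
          rw [ENNReal.ofReal_of_nonpos (mul_nonpos_of_nonneg_of_nonpos hΛ.le hh), lintegral_zero]
        rw [h0, ENNReal.toReal_zero] at hsmall
        have h1 : qz z = 0 := le_antisymm hh ENNReal.toReal_nonneg
        rw [h1, mul_zero, zero_mul] at hsmall
        exact lt_irrefl _ hsmall
      set νz := μ.withDensity (f z)
      haveI : IsFiniteMeasure νz := isFiniteMeasure_withDensity hffin
      have hmass : νz Set.univ = ∫⁻ s, f z s ∂μ := by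
        rw [withDensity_apply _ MeasurableSet.univ, setLIntegral_univ]
      have hle : ∀ S, MeasurableSet S → νz S ≤ ENNReal.ofReal (Λ * qz z) * μ S := by
        intro S hS
        rw [withDensity_apply _ hS, ← setLIntegral_const]
        exact lintegral_mono hfle
      have := ih (t + k) z νz x r (Λ * qz z * Ψ) hr (by positivity)
        (withDensity_absolutelyContinuous μ (f z) hsupp)
        (fun y ρ hρ => (hle _ measurableSet_closedBall).trans (by
          rw [mul_assoc (Λ * qz z), ENNReal.ofReal_mul (by positivity : 0 ≤ Λ * qz z)]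
          gcongr; exact hball y ρ hρ)) (by
          rw [hmass]
          calc Λ * qz z * Ψ * r ^ a = Λ * qz z * (Ψ * r ^ a * η) / η := by field_simp
            _ ≤ Λ * qz z * (2 * Pold * m) / η := by gcongr
            _ = Pold * Gam k l a G η * (η * qz z * m) := by
                rw [Gam, ← hΛdef]; field_simp
            _ ≤ _ := by
                gcongr
                rw [Gam, ← hΛdef]; positivity)
      rw [lintegral_withDensity_eq_lintegral_mul _ (hfm z) (hgm z), hmass] at this
      exact this
    refine (Finset.sum_le_sum fun z _ => hz z).trans ?_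
    rw [Finset.sum_add_distrib, ← Finset.mul_sum, ENNReal.ofReal_add hβ hη0.le, add_mul]
    refine add_le_add (mul_le_mul_right ?_ _) ?_
    · rw [← lintegral_finsetSum _ fun z _ => hfm z]
      calc _ ≤ ∫⁻ _s, 1 ∂μ := by
            refine lintegral_mono fun s => ?_
            refine le_trans (Finset.sum_le_sum fun z _ => ?_) (sum_hitProb_le hstep k t q x r (T s))
            exact Set.indicator_apply_le' (fun _ => le_rfl) (fun _ => zero_le)
        _ = _ := by simp
    · rw [← ENNReal.ofReal_sum_of_nonneg (fun z _ => by positivity), hμm,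
        ← ENNReal.ofReal_mul hη0.le]
      refine ENNReal.ofReal_le_ofReal (le_of_eq ?_)
      rw [← Finset.sum_mul, ← Finset.mul_sum, hqz,
        ← ENNReal.toReal_sum (fun z _ => measure_ne_top _ _), sum_stateSet hstep,
        ENNReal.toReal_one, mul_one]
  refine (add_le_add (add_le_add hgood hbad) le_rfl).trans (le_of_eq ?_)
  rw [ENNReal.ofReal_mul hη0.le, ← hμm, ← add_mul, ← add_mul,
    ← ENNReal.ofReal_add (by positivity) hη0.le, ← ENNReal.ofReal_add (by positivity) hη0.le]
  congr 2; ring

theorem value_bound [NeZero N] (hstep : ∀ t q, Measurable fun p : E × ℝ => step t q p.1 p.2)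
    {k l a D : ℕ} (hl : 1 ≤ l) (ha : l + 2 * k + 1 ≤ a) (haD : a < D) (haD2 : a ≤ 2 * (D - a))
    {G η : ℝ} (hG : 1 ≤ G) (hNG : (N:ℝ) ^ 2 ≤ G ^ (l + 1)) (hη : η = (3 / 4) ^ k) (hε : 0 < ε) :
    ∀ j t q (ν : Measure E) [IsFiniteMeasure ν] (c : E) (R Ψ P : ℝ), 0 < R → 0 < Ψ → 1 ≤ P →
      ν (closedBall c R)ᶜ = 0 →
      (∀ x, ∀ r : ℝ, 0 < r → ν (closedBall x r) ≤ ENNReal.ofReal (Ψ * r ^ D)) →
      Ψ * R ^ a ≤ P * (ν Set.univ).toReal →
      ∫⁻ s, value step out ε (j * k) t q s ∂ν
        ≤ ENNReal.ofReal (j * (4 * η) + ε ^ D * (P * Gam k l a G η ^ j) ^ 3) * ν Set.univ := by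
  have hη0 : 0 < η := by rw [hη]; positivity
  have hη1 : η ≤ 1 := by rw [hη]; exact pow_le_one₀ (by norm_num) (by norm_num)
  have hC := C3r_one_le k l a
  have hΓ : 1 ≤ Gam k l a G η := by
    unfold Gam Lam
    rw [one_le_div (by positivity)]
    have h1 : (1:ℝ) ≤ 4096 ^ k := one_le_pow₀ (by norm_num)
    have h2 : (1:ℝ) ≤ 4 * G * 4096 ^ k * C3r k l a := by
      have : (1:ℝ) ≤ G * 4096 ^ k := one_le_mul_of_one_le_of_one_le hG h1
      nlinarith
    have h3 : η ^ 2 ≤ 1 := pow_le_one₀ hη0.le hη1
    have h4 : 1 ≤ 4 * G * 4096 ^ k * C3r k l a / η := by rw [one_le_div hη0]; linarith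
    linarith
  intro j
  induction j with
  | zero =>
    intro t q ν _ c R Ψ P hR hΨ hP hsupp hball hpot
    simp only [zero_mul, value, Nat.cast_zero, zero_add, pow_zero, mul_one]
    rw [lintegral_indicator_one measurableSet_closedBall,
      ← ENNReal.ofReal_toReal (measure_ne_top ν Set.univ), ← ENNReal.ofReal_mul (by positivity)]
    set M := (ν Set.univ).toReal
    rcases (ENNReal.toReal_nonneg (a := ν Set.univ)).eq_or_lt with h0 | h0
    · change 0 = M at h0
      rw [← h0, mul_zero] at hpot
      exact absurd hpot (not_le.2 (by positivity))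
    change 0 < M at h0
    refine (hball _ ε hε).trans (ENNReal.ofReal_le_ofReal ?_)
    have hMle : M ≤ Ψ * R ^ D := by
      refine ENNReal.toReal_le_of_le_ofReal (by positivity) (le_trans (le_of_eq ?_) (hball c R hR))
      exact (measure_of_measure_compl_eq_zero hsupp).symm
    have h1 : 1 ≤ P * R ^ (D - a) := by
      refine le_of_mul_le_mul_left ?_ h0
      rw [mul_one]
      calc M ≤ Ψ * R ^ D := hMle
        _ = Ψ * R ^ a * R ^ (D - a) := by rw [mul_assoc, ← pow_add, Nat.add_sub_cancel' haD.le]
        _ ≤ P * M * R ^ (D - a) := by gcongr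
        _ = M * (P * R ^ (D - a)) := by ring
    have h2 : 1 ≤ P ^ 2 * R ^ a := by
      by_cases hR1 : 1 ≤ R
      · exact one_le_mul_of_one_le_of_one_le (one_le_pow₀ hP) (one_le_pow₀ hR1)
      · push Not at hR1
        calc (1:ℝ) ≤ (P * R ^ (D - a)) ^ 2 := one_le_pow₀ h1
          _ = P ^ 2 * R ^ (2 * (D - a)) := by rw [mul_pow, ← pow_mul, mul_comm (D - a)]
          _ ≤ _ := mul_le_mul_of_nonneg_left (pow_le_pow_of_le_one hR.le hR1.le haD2) (by positivity)
    calc Ψ * ε ^ D ≤ Ψ * (P ^ 2 * R ^ a) * ε ^ D := by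
          refine mul_le_mul_of_nonneg_right (le_mul_of_one_le_right hΨ.le h2) (by positivity)
      _ = ε ^ D * P ^ 2 * (Ψ * R ^ a) := by ring
      _ ≤ ε ^ D * P ^ 2 * (P * M) := by gcongr
      _ = _ := by ring
  | succ j ih =>
    intro t q ν _ c R Ψ P hR hΨ hP hsupp hball hpot
    set β := (j:ℝ) * (4 * η) + ε ^ D * (P * Gam k l a G η ^ (j + 1)) ^ 3 with hβd
    have hβ : 0 ≤ β := by
      have : 0 ≤ P * Gam k l a G η ^ (j + 1) := by positivity
      positivity
    have hfinal : β + 3 * η + η
        = ((j + 1 : ℕ) : ℝ) * (4 * η) + ε ^ D * (P * Gam k l a G η ^ (j + 1)) ^ 3 := by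
      rw [hβd]; push_cast; ring
    rw [← hfinal, show (j + 1) * k = j * k + k by ring]
    refine decompose hR hΨ hη0 haD hsupp hball _ (fun s => value_le_one _ _ _ _) (by positivity) ?_
    intro S hS x r hpc
    have hlow := hpc.lower
    have hpot' : Ψ * r ^ a * η ≤ 2 * P * (ν.restrict S Set.univ).toReal := by
      set M := (ν Set.univ).toReal
      set m := (ν.restrict S Set.univ).toReal
      have hMpos : 0 < M := by
        by_contra hh
        push Not at hh
        have : P * M ≤ 0 := mul_nonpos_of_nonneg_of_nonpos (by linarith) hh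
        linarith [show 0 < Ψ * R ^ a by positivity]
      rw [div_mul_eq_mul_div, div_le_iff₀ (by positivity)] at hlow
      refine le_of_mul_le_mul_right ?_ hMpos
      calc Ψ * r ^ a * η * M = Ψ * (η * M * r ^ a) := by ring
        _ ≤ Ψ * (m * (2 * R ^ a)) := by gcongr
        _ = 2 * m * (Ψ * R ^ a) := by ring
        _ ≤ 2 * m * (P * M) := by
            gcongr
        _ = 2 * P * m * M := by ring
    have := piece_bound (ε := ε) (out := out) hstep (D := D) hl ha hG hNG hη hβ (by linarith : 0 ≤ P)
      (fun t' q' ν' hν' c' R' Ψ' hR' hΨ' hs' hb' hp' => by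
        have hih := @ih t' q' ν' hν' c' R' Ψ' (P * Gam k l a G η) hR' hΨ'
          (one_le_mul_of_one_le_of_one_le hP hΓ) hs' hb' hp'
        rw [mul_assoc, ← pow_succ'] at hih
        rw [hβd]; exact hih)
      t q (ν.restrict S) hΨ hpc
      (fun y ρ hρ => (Measure.restrict_apply_le S _).trans (hball y ρ hρ)) hpot'
    rwa [Measure.restrict_apply_univ] at this

end Vale.Agent.P309
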