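import Mathlib
import Vale.Agent.P309.Induction
import Vale.Agent.P309.Defs

/-
Bridge from learners to `value`, bounds for the uniform law, and the final numerics.
-/

namespace Vale.Agent.P309

open MeasureTheory ProbabilityTheory Metric
open scoped RealInnerProductSpace ENNReal NNReal Pointwise

variable {d : ℕ}

lemma sphere_cap (hd : 4 ≤ d) (x : EuclideanSpace ℝ (Fin d)) (r : ℝ) (hr : 0 < r) :
    (uniformSphere d) (closedBall x r) ≤ ENNReal.ofReal (4 ^ d * r ^ (d - 1)) := by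
  haveI : Nonempty (Fin d) := ⟨⟨0, by omega⟩⟩
  set V : Measure (EuclideanSpace ℝ (Fin d)) := volume
  have hb0 : V (ball 0 1) ≠ 0 := (measure_ball_pos _ _ one_pos).ne'
  have hbt : V (ball 0 1) ≠ ⊤ := measure_ball_lt_top.ne
  have hd0 : ((d : ℝ≥0∞)) ≠ 0 := by simp; omega
  have hu : V.toSphere Set.univ = (d : ℝ≥0∞) * V (ball 0 1) := by
    rw [Measure.toSphere_apply_univ, finrank_euclideanSpace, Fintype.card_fin]
  rw [uniformSphere, Measure.map_apply measurable_subtype_coe measurableSet_closedBall,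
    Measure.smul_apply, hu]
  set S : Set (sphere (0 : EuclideanSpace ℝ (Fin d)) 1) := Subtype.val ⁻¹' closedBall x r
  rw [smul_eq_mul, mul_comm, ← div_eq_mul_inv]
  refine ENNReal.div_le_of_le_mul ?_
  by_cases hr1 : 1 ≤ r
  · calc V.toSphere S ≤ V.toSphere Set.univ := measure_mono (Set.subset_univ _)
      _ = 1 * ((d : ℝ≥0∞) * V (ball 0 1)) := by rw [hu, one_mul]
      _ ≤ _ := by
          gcongr
          rw [ENNReal.one_le_ofReal]
          exact one_le_mul_of_one_le_of_one_le (one_le_pow₀ (by norm_num)) (one_le_pow₀ hr1)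
  push Not at hr1
  rw [Measure.toSphere_apply' _ (measurable_subtype_coe measurableSet_closedBall),
    finrank_euclideanSpace, Fintype.card_fin, ← mul_assoc, mul_comm _ (d : ℝ≥0∞), mul_assoc]
  gcongr
  rcases S.eq_empty_or_nonempty with hS | ⟨z, hz⟩
  · rw [show (Subtype.val ⁻¹' closedBall x r : Set (sphere (0 : EuclideanSpace ℝ (Fin d)) 1)) = ∅ from hS, Set.image_empty, Set.smul_empty, measure_empty]; exact zero_le
  set J := ⌈1 / r⌉₊
  have hsub : Set.Ioo (0:ℝ) 1 • (Subtype.val '' S) ⊆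
      ⋃ i ∈ Finset.range (J + 1), closedBall (((i:ℝ) * r) • (z : EuclideanSpace ℝ (Fin d))) (3 * r) := by
    rintro _ ⟨t, ⟨ht0, ht1⟩, _, ⟨w, hw, rfl⟩, rfl⟩
    have hi0 : (⌊t / r⌋₊ : ℝ) ≤ t / r := Nat.floor_le (by positivity)
    have hi1 := Nat.lt_floor_add_one (t / r)
    refine Set.mem_iUnion₂.2 ⟨⌊t / r⌋₊, Finset.mem_range.2 (Nat.lt_succ_of_le ?_), ?_⟩
    · refine Nat.floor_le_of_le ((div_le_div_of_nonneg_right ht1.le hr.le).trans (Nat.le_ceil _))
    · have hwn : ‖(w : EuclideanSpace ℝ (Fin d))‖ = 1 := by simpa using w.2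
      have hzn : ‖(z : EuclideanSpace ℝ (Fin d))‖ = 1 := by simpa using z.2
      have hwz : ‖(w : EuclideanSpace ℝ (Fin d)) - z‖ ≤ 2 * r := by
        simp only [S, Set.mem_preimage, mem_closedBall, dist_eq_norm] at hw hz
        have := norm_sub_le_norm_sub_add_norm_sub (w : EuclideanSpace ℝ (Fin d)) x z
        rw [norm_sub_rev x] at this
        linarith
      rw [mem_closedBall, dist_eq_norm]
      have e : t • (w : EuclideanSpace ℝ (Fin d)) - ((⌊t / r⌋₊ : ℝ) * r) • (z : EuclideanSpace ℝ (Fin d))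
          = t • ((w : EuclideanSpace ℝ (Fin d)) - z)
            + (t - (⌊t / r⌋₊ : ℝ) * r) • (z : EuclideanSpace ℝ (Fin d)) := by
        rw [smul_sub, sub_smul]; abel
      show ‖t • (w : EuclideanSpace ℝ (Fin d)) - _‖ ≤ _
      rw [e]
      refine (norm_add_le _ _).trans ?_
      rw [norm_smul, norm_smul, hzn, mul_one, Real.norm_eq_abs, Real.norm_eq_abs, abs_of_pos ht0]
      rw [le_div_iff₀ hr] at hi0
      rw [div_lt_iff₀ hr] at hi1
      rw [abs_of_nonneg (by linarith)]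
      nlinarith [norm_nonneg ((w : EuclideanSpace ℝ (Fin d)) - z)]
  refine (measure_mono hsub).trans ((measure_biUnion_finset_le _ _).trans ?_)
  simp only [Measure.addHaar_closedBall (volume : Measure (EuclideanSpace ℝ (Fin d))) _ (by linarith : 0 ≤ 3 * r), finrank_euclideanSpace,
    Fintype.card_fin, Finset.sum_const, Finset.card_range, nsmul_eq_mul, ← mul_assoc]
  gcongr
  rw [← ENNReal.ofReal_natCast, ← ENNReal.ofReal_mul (Nat.cast_nonneg _)]
  refine ENNReal.ofReal_le_ofReal ?_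
  have hJ : ((J + 1 : ℕ) : ℝ) ≤ 3 / r := by
    push_cast
    have h1 := Nat.ceil_lt_add_one (show 0 ≤ 1 / r by positivity)
    have h2 : 1 ≤ 1 / r := by rw [le_div_iff₀ hr]; linarith
    have h3 : (3:ℝ) / r = 3 * (1 / r) := by ring
    linarith
  have h34 : (3:ℝ) * 3 ^ d ≤ 4 ^ d := by
    obtain ⟨e, rfl⟩ := Nat.exists_eq_add_of_le hd
    rw [pow_add, pow_add]
    have : (3:ℝ) ^ e ≤ 4 ^ e := pow_le_pow_left₀ (by norm_num) (by norm_num) e
    nlinarith [pow_pos (show (0:ℝ) < 3 by norm_num) e]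
  calc ((J + 1 : ℕ) : ℝ) * (3 * r) ^ d ≤ 3 / r * (3 * r) ^ d := by gcongr
    _ = 3 * 3 ^ d * r ^ (d - 1) := by
        rw [mul_pow, ← Nat.sub_add_cancel (show 1 ≤ d by omega), pow_succ r, Nat.add_sub_cancel]
        field_simp
    _ ≤ _ := by gcongr

lemma sphere_prob (hd : 1 ≤ d) : IsProbabilityMeasure (uniformSphere d) := by
  haveI : Nonempty (Fin d) := ⟨⟨0, by omega⟩⟩
  haveI : NeZero ((volume : Measure (EuclideanSpace ℝ (Fin d))).toSphere) :=
    ⟨Measure.measure_univ_ne_zero.1 (by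
      rw [Measure.toSphere_apply_univ, finrank_euclideanSpace, Fintype.card_fin]
      exact mul_ne_zero (by simp; omega) (measure_ball_pos _ _ one_pos).ne')⟩
  haveI : IsFiniteMeasure ((volume : Measure (EuclideanSpace ℝ (Fin d))).toSphere) := inferInstance
  exact Measure.isProbabilityMeasure_map measurable_subtype_coe.aemeasurable

lemma sphere_supp : (uniformSphere d) (closedBall 0 1)ᶜ = 0 := by
  rw [uniformSphere, Measure.map_apply measurable_subtype_coe measurableSet_closedBall.compl]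
  have : (Subtype.val : sphere (0 : EuclideanSpace ℝ (Fin d)) 1 → _) ⁻¹' (closedBall 0 1)ᶜ = ∅ := by
    ext w; simp
  rw [this, measure_empty]

lemma value_id {N : ℕ} {step : ℕ → Fin N → EuclideanSpace ℝ (Fin d) → ℝ → Fin N}
    {out : Fin N → EuclideanSpace ℝ (Fin d)} {ε : ℝ} {T : ℕ}
    (hid : ∀ t, T ≤ t → ∀ q x y, step t q x y = q) :
    ∀ n t, T ≤ t → ∀ q s, value step out ε n t q s = (closedBall (out q) ε).indicator 1 s := by
  intro n
  induction n with
  | zero => intros; rfl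
  | succ n ih =>
    intro t ht q s
    simp only [value, hid t ht, ih (t + 1) (by omega), lintegral_const, measure_univ, mul_one]

lemma value_le_sum {N : ℕ} {step : ℕ → Fin N → EuclideanSpace ℝ (Fin d) → ℝ → Fin N}
    {out : Fin N → EuclideanSpace ℝ (Fin d)} {ε : ℝ} :
    ∀ n t q s, value step out ε n t q s ≤ ∑ z, (closedBall (out z) ε).indicator 1 s := by
  intro n
  induction n with
  | zero => intro t q s; exact Finset.single_le_sum
              (f := fun z => (closedBall (out z) ε).indicator (1 : EuclideanSpace ℝ (Fin d) → ℝ≥0∞) s)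
              (fun z _ => zero_le) (Finset.mem_univ q)
  | succ n ih =>
    intro t q s
    refine (lintegral_mono fun x => ih _ _ _).trans ?_
    simp

/-- numerical bound on the growth factor -/
lemma Gam_le {d k l a B : ℕ} (hk : k ≤ d) (hl : l ≤ d) (ha : a ≤ d) :
    Gam k l a ((2:ℝ) ^ (B * d)) ((3 / 4) ^ k) ≤ 2 ^ ((B + 29) * d + 5) := by
  have hη : ((1:ℝ) / 2) ^ d ≤ (3 / 4) ^ k :=
    (pow_le_pow_of_le_one (by norm_num) (by norm_num) hk).trans
      (pow_le_pow_left₀ (by norm_num) (by norm_num) k)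
  have hC : C3r k l a ≤ 2 ^ (2 + 8 * d) := by
    unfold C3r
    have h1 : (9:ℝ) ^ l ≤ 2 ^ (4 * d) := by
      rw [pow_mul]; exact (pow_le_pow_right₀ (by norm_num) hl).trans
        (pow_le_pow_left₀ (by norm_num) (by norm_num) d)
    have h2 : (3:ℝ) ^ a ≤ 2 ^ (2 * d) := by
      rw [pow_mul]; exact (pow_le_pow_right₀ (by norm_num) ha).trans
        (pow_le_pow_left₀ (by norm_num) (by norm_num) d)
    have h3 : (4:ℝ) ^ k ≤ 2 ^ (2 * d) := by
      rw [pow_mul]; exact (pow_le_pow_right₀ (by norm_num) hk).trans (by norm_num)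
    calc 1 + 2 * (9:ℝ) ^ l * 3 ^ a * 4 ^ k
        ≤ 1 + 2 * 2 ^ (4 * d) * 2 ^ (2 * d) * 2 ^ (2 * d) := by gcongr
      _ = 1 + 2 * 2 ^ (8 * d) := by rw [mul_assoc, mul_assoc, ← pow_add, ← pow_add]; congr 2; ring_nf
      _ ≤ _ := by
          rw [pow_add]
          have : (1:ℝ) ≤ 2 ^ (8 * d) := one_le_pow₀ (by norm_num)
          linarith
  have h4 : (4096:ℝ) ^ k ≤ 2 ^ (12 * d) := by
    rw [pow_mul]; exact (pow_le_pow_right₀ (by norm_num) hk).trans (by norm_num)
  have hη0 : (0:ℝ) < (3 / 4) ^ k := by positivity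
  have e : Gam k l a ((2:ℝ) ^ (B * d)) ((3 / 4) ^ k)
      = 8 * 2 ^ (B * d) * 4096 ^ k * C3r k l a * (((3 / 4) ^ k)⁻¹) ^ 3 := by
    unfold Gam Lam; field_simp; ring
  have hinv : ((3 / 4 : ℝ) ^ k)⁻¹ ≤ 2 ^ d := by
    refine (inv_anti₀ (by positivity) hη).trans_eq ?_
    rw [← inv_pow]; norm_num
  have hC0 : 0 ≤ C3r k l a := le_trans zero_le_one (C3r_one_le k l a)
  rw [e]
  calc 8 * (2:ℝ) ^ (B * d) * 4096 ^ k * C3r k l a * (((3 / 4) ^ k)⁻¹) ^ 3
      ≤ 8 * 2 ^ (B * d) * 2 ^ (12 * d) * 2 ^ (2 + 8 * d) * (2 ^ d) ^ 3 := by gcongr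
    _ = 2 ^ (3 + B * d + 12 * d + (2 + 8 * d) + d * 3) := by
        rw [← pow_mul, show (8:ℝ) = 2 ^ 3 by norm_num, ← pow_add, ← pow_add, ← pow_add, ← pow_add]
    _ ≤ _ := pow_le_pow_right₀ (by norm_num) (by nlinarith)

lemma big_case {d D N : ℕ} {C B3 L ε : ℝ} (hd : 100 ≤ d) (hC : 0 ≤ C) (hε : 0 < ε)
    (hεexp : ε = Real.exp (-L)) (hN : (N:ℝ) ≤ 2 ^ (C * (d:ℝ) ^ 2 + 1)) (hDr : (D:ℝ) = d - 1)
    (hB3 : B3 = 2 * C + 12) (hbig : B3 * d < L) (hL1 : 1 ≤ L) :
    (N:ℝ) * (4 ^ d * ε ^ D) ≤ 1 / 2 := by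
  have hdR : (100:ℝ) ≤ d := by exact_mod_cast hd
  have h2e : ∀ x : ℝ, (2:ℝ) ^ x = Real.exp (Real.log 2 * x) := fun x =>
    Real.rpow_def_of_pos two_pos x
  have hl2 : Real.log 2 ≤ 1 := by
    have := Real.log_le_sub_one_of_pos (show (0:ℝ) < 2 by norm_num); linarith
  have h4 : (4:ℝ) ^ d = (2:ℝ) ^ ((2:ℝ) * d) := by
    rw [Real.rpow_mul two_pos.le, Real.rpow_natCast]; norm_num
  calc (N:ℝ) * (4 ^ d * ε ^ D) ≤ (2:ℝ) ^ (C * (d:ℝ) ^ 2 + 1) * (4 ^ d * ε ^ D) := by gcongr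
    _ = Real.exp (Real.log 2 * (C * (d:ℝ) ^ 2 + 1 + 2 * d) + (D:ℝ) * (-L)) := by
        rw [h4, hεexp, ← Real.exp_nat_mul, h2e, h2e, ← Real.exp_add, ← Real.exp_add]
        congr 1; ring
    _ ≤ Real.exp (-1) := by
        refine Real.exp_le_exp.2 ?_
        have h1 : Real.log 2 * (C * (d:ℝ) ^ 2 + 1 + 2 * d) ≤ C * (d:ℝ) ^ 2 + 1 + 2 * d :=
          mul_le_of_le_one_left (by positivity) hl2
        have h3 : (d:ℝ) / 2 * L ≤ (D:ℝ) * L := by gcongr; rw [hDr]; linarith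
        have h5 : (d:ℝ) / 2 * (B3 * d) ≤ (d:ℝ) / 2 * L := by gcongr
        rw [hB3] at h5
        nlinarith
    _ ≤ 1 / 2 := Real.exp_neg_one_lt_half.le

lemma second_case {d D B2 j : ℕ} {c L ε Γ : ℝ} (hd : 100 ≤ d) (hDr : (D:ℝ) = d - 1)
    (hεexp : ε = Real.exp (-L)) (hΓ0 : 0 ≤ Γ) (hΓ : Γ ≤ 2 ^ (B2 * d)) (hc : c = 1 / (480 * B2))
    (hB2 : (0:ℝ) < B2) (hjle : (j:ℝ) ≤ 40 * c * L + 1) (hL0 : 12 * ((B2:ℝ) + 2) ≤ L) :
    ε ^ D * ((4:ℝ) ^ d * Γ ^ j) ^ 3 ≤ Real.exp (-2) := by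
  have hdR : (100:ℝ) ≤ d := by exact_mod_cast hd
  have hε : 0 < ε := hεexp ▸ Real.exp_pos _
  have hL1 : 1 ≤ L := by linarith
  have h2e : ∀ x : ℝ, (2:ℝ) ^ x = Real.exp (Real.log 2 * x) := fun x =>
    Real.rpow_def_of_pos two_pos x
  have hl2 : Real.log 2 ≤ 1 := by
    have := Real.log_le_sub_one_of_pos (show (0:ℝ) < 2 by norm_num); linarith
  calc ε ^ D * ((4:ℝ) ^ d * Γ ^ j) ^ 3
      ≤ ε ^ D * ((4:ℝ) ^ d * (2 ^ (B2 * d)) ^ j) ^ 3 := by
        gcongr
    _ = ε ^ D * (2:ℝ) ^ ((((2 * d + B2 * d * j) * 3 : ℕ)) : ℝ) := by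
        rw [Real.rpow_natCast]
        congr 1
        rw [← pow_mul, show (4:ℝ) = 2 ^ 2 by norm_num, ← pow_mul, ← pow_add, ← pow_mul]
    _ = Real.exp ((D:ℝ) * (-L) + Real.log 2 * ((2 * d + B2 * d * j) * 3 : ℝ)) := by
        rw [h2e, Real.exp_add, hεexp, ← Real.exp_nat_mul]; push_cast; rfl
    _ ≤ _ := by
        refine Real.exp_le_exp.2 ?_
        have h1 : Real.log 2 * ((2 * d + B2 * d * j) * 3 : ℝ) ≤ (2 * d + B2 * d * j) * 3 :=
          mul_le_of_le_one_left (by positivity) hl2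
        have h2 : (B2:ℝ) * d * j ≤ B2 * d * (40 * c * L + 1) := by gcongr
        have h3 : (B2:ℝ) * d * (40 * c * L + 1) = d * L / 12 + B2 * d := by
          rw [hc]; field_simp; ring
        have h4 : 12 * ((B2:ℝ) + 2) * d ≤ L * d :=
          mul_le_mul_of_nonneg_right hL0 (by positivity)
        have h5 : (d:ℝ) ≤ d * L := le_mul_of_one_le_right (by positivity) hL1
        rw [hDr]
        nlinarith

/-- The main bound for a deterministic learner in `value` form. -/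
theorem core (C : ℝ) (hC : 0 ≤ C) : ∃ c ε0 : ℝ, ∃ d0 : ℕ, 0 < c ∧ 0 < ε0 ∧ ε0 ≤ 1 / 2 ∧ 100 ≤ d0 ∧
    ∀ d, d0 ≤ d → ∀ ε : ℝ, 0 < ε → ε ≤ ε0 → ∀ N T : ℕ, (N:ℝ) ≤ 2 ^ (C * (d:ℝ) ^ 2 + 1) →
      (T:ℝ) < c * d * Real.log (1 / ε) →
      ∀ (step : ℕ → Fin N → EuclideanSpace ℝ (Fin d) → ℝ → Fin N)
        (out : Fin N → EuclideanSpace ℝ (Fin d)) (q : Fin N),
        (∀ t q, Measurable fun p : EuclideanSpace ℝ (Fin d) × ℝ => step t q p.1 p.2) →
        (∀ t, T ≤ t → ∀ q x y, step t q x y = q) →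
        ∫⁻ s, value step out ε T 0 q s ∂uniformSphere d ≤ ENNReal.ofReal (1 / 2) := by
  set B := ⌈8 * C + 8⌉₊ with hB
  set B2 : ℕ := B + 34 with hB2
  set B3 : ℝ := 2 * C + 12 with hB3
  set c : ℝ := 1 / (480 * B2) with hc
  have hB2pos : (0:ℝ) < B2 := by positivity
  have hc0 : 0 < c := by positivity
  set K4 : ℝ := 40 * c * B3 + 1 with hK4
  have hlim := tendsto_self_mul_const_pow_of_lt_one (show (0:ℝ) ≤ 3 / 4 by norm_num) (by norm_num)
  obtain ⟨K1, hK1⟩ := Filter.eventually_atTop.1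
    (hlim.eventually_lt_const (show (0:ℝ) < 1 / (1600 * (|K4| + 1)) by positivity))
  set L0 : ℝ := max 1 (12 * ((B2:ℝ) + 2)) with hL0
  refine ⟨c, Real.exp (-L0), max 100 (40 * K1 + 40), hc0, Real.exp_pos _, ?_, le_max_left _ _, ?_⟩
  · rw [Real.exp_neg]
    rw [inv_le_comm₀ (Real.exp_pos _) (by norm_num)]
    have := Real.add_one_le_exp L0
    have : 1 ≤ L0 := le_max_left _ _
    norm_num; linarith
  intro d hd ε hε hεle N T hN hT step out q hstep hid
  have hd100 : 100 ≤ d := le_trans (le_max_left _ _) hd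
  haveI : NeZero N := ⟨fun h => by subst h; exact q.elim0⟩
  haveI := sphere_prob (d := d) (by omega)
  set L := Real.log (1 / ε) with hL
  have hLe : L0 ≤ L := by
    rw [hL, one_div, Real.log_inv, le_neg, Real.log_le_iff_le_exp hε]
    exact hεle
  have hL1 : 1 ≤ L := le_trans (le_max_left _ _) hLe
  have hεexp : ε = Real.exp (-L) := by
    rw [hL, one_div, Real.log_inv, neg_neg, Real.exp_log hε]
  have hdR : (100:ℝ) ≤ d := by exact_mod_cast hd100
  set D := d - 1 with hD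
  have hDr : (D:ℝ) = d - 1 := by rw [hD, Nat.cast_sub (by omega)]; simp
  have h2e : ∀ x : ℝ, (2:ℝ) ^ x = Real.exp (Real.log 2 * x) := fun x =>
    Real.rpow_def_of_pos two_pos x
  have hl2 : Real.log 2 ≤ 1 := by
    have := Real.log_le_sub_one_of_pos (show (0:ℝ) < 2 by norm_num); linarith
  have hl20 : 0 ≤ Real.log 2 := Real.log_nonneg (by norm_num)
  by_cases hbig : B3 * d < L
  · -- too small a ball for the number of states
    calc ∫⁻ s, value step out ε T 0 q s ∂uniformSphere d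
        ≤ ∑ z, uniformSphere d (closedBall (out z) ε) := by
          refine (lintegral_mono fun s => value_le_sum T 0 q s).trans (le_of_eq ?_)
          rw [lintegral_finsetSum _ fun z _ => measurable_one.indicator measurableSet_closedBall]
          exact Finset.sum_congr rfl fun z _ => lintegral_indicator_one measurableSet_closedBall
      _ ≤ ∑ _z : Fin N, ENNReal.ofReal (4 ^ d * ε ^ D) :=
          Finset.sum_le_sum fun z _ => sphere_cap (by omega) _ ε hε
      _ = ENNReal.ofReal (N * (4 ^ d * ε ^ D)) := by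
          rw [Finset.sum_const, Finset.card_univ, Fintype.card_fin, nsmul_eq_mul,
            ENNReal.ofReal_mul (Nat.cast_nonneg N), ENNReal.ofReal_natCast]
      _ ≤ _ := by
          exact ENNReal.ofReal_le_ofReal (big_case hd100 hC hε hεexp hN hDr hB3 hbig hL1)
  push Not at hbig
  set k := d / 20 with hk
  set l := d / 4 with hl
  set a := d / 2 with ha
  set j := T / k + 1 with hj
  have hk1 : 1 ≤ k := by omega
  have hTjk : T ≤ j * k := by
    rw [hj, Nat.succ_mul]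
    have := Nat.div_add_mod T k
    have := Nat.mod_lt T (show k > 0 by omega)
    rw [mul_comm] at *
    linarith
  have hpad : value step out ε (j * k) 0 q = value step out ε T 0 q := by
    funext s
    have h1 := value_block (ε := ε) (out := out) hstep (j * k - T) T 0 q s
    have h2 := value_block (ε := ε) (out := out) hstep 0 T 0 q s
    rw [Nat.sub_add_cancel hTjk] at h1
    rw [Nat.zero_add T] at h2
    rw [h1, h2]
    refine lintegral_congr fun X => ?_
    rw [value_id hid _ _ (by omega), value_id hid _ _ (by omega)]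
  rw [← hpad]
  set G : ℝ := 2 ^ (B * d)
  set η : ℝ := (3 / 4) ^ k with hη
  have hNG : (N:ℝ) ^ 2 ≤ G ^ (l + 1) := by
    calc (N:ℝ) ^ 2 ≤ ((2:ℝ) ^ (C * (d:ℝ) ^ 2 + 1)) ^ 2 := by gcongr
      _ = (2:ℝ) ^ ((C * (d:ℝ) ^ 2 + 1) * 2) := by
          rw [← Real.rpow_natCast, ← Real.rpow_mul two_pos.le]; norm_num
      _ ≤ (2:ℝ) ^ (((B * d * (l + 1) : ℕ)) : ℝ) := by
          refine Real.rpow_le_rpow_of_exponent_le one_le_two ?_
          push_cast
          have h1 : (d:ℝ) ≤ 4 * ((l:ℝ) + 1) := by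
            exact_mod_cast (show d ≤ 4 * (l + 1) by omega)
          have h2 : 8 * C + 8 ≤ (B:ℝ) := Nat.le_ceil _
          have h3 : (8 * C + 8) * d * d ≤ (B:ℝ) * d * (4 * ((l:ℝ) + 1)) := by gcongr
          nlinarith
      _ = _ := by rw [Real.rpow_natCast, ← pow_mul]
  have hmain := value_bound (ε := ε) (out := out) hstep (k := k) (l := l) (a := a) (D := D)
    (by omega) (by omega) (by omega) (by omega) (η := η) (G := G) (one_le_pow₀ one_le_two) hNG hη hε
    j 0 q (uniformSphere d) 0 1 (4 ^ d) (4 ^ d) one_pos (by positivity) (one_le_pow₀ (by norm_num))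
    sphere_supp (fun x r hr => sphere_cap (by omega) x r hr) (by simp)
  rw [measure_univ, mul_one] at hmain
  refine hmain.trans (ENNReal.ofReal_le_ofReal ?_)
  -- numerics
  have hk40 : (d:ℝ) ≤ 40 * k := by exact_mod_cast (show d ≤ 40 * k by omega)
  have hTk : ((T / k : ℕ) : ℝ) ≤ 40 * c * L := by
    refine Nat.cast_div_le.trans ?_
    rw [div_le_iff₀ (by exact_mod_cast (show 0 < k by omega))]
    calc (T:ℝ) ≤ c * d * L := hT.le
      _ ≤ c * (40 * k) * L := by gcongr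
      _ = _ := by ring
  have hjle : (j:ℝ) ≤ 40 * c * L + 1 := by rw [hj]; push_cast; linarith
  have hfirst : (j:ℝ) * (4 * η) ≤ 1 / 10 := by
    have h1 : (j:ℝ) ≤ K4 * d := by
      have h2 : 40 * c * L ≤ 40 * c * (B3 * d) := by gcongr
      rw [hK4]; linarith
    have h3 : (j:ℝ) ≤ (|K4| + 1) * (40 * k) := by
      refine h1.trans ?_
      gcongr
      linarith [le_abs_self K4]
    have h4 := (hK1 k (by omega)).le
    rw [← hη, le_div_iff₀ (by positivity)] at h4
    calc (j:ℝ) * (4 * η) ≤ (|K4| + 1) * (40 * k) * (4 * η) := by gcongr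
      _ = ((k:ℝ) * η * (1600 * (|K4| + 1))) / 10 := by ring
      _ ≤ 1 / 10 := by linarith
  have hΓ : Gam k l a G η ≤ 2 ^ ((B + 29) * d + 5) := Gam_le (by omega) (by omega) (by omega)
  have hΓ0 : 0 ≤ Gam k l a G η := by
    have := C3r_one_le k l a
    unfold Gam Lam; positivity
  have hsecond : ε ^ D * ((4:ℝ) ^ d * Gam k l a G η ^ j) ^ 3 ≤ Real.exp (-2) :=
    second_case hd100 hDr hεexp hΓ0 (hΓ.trans (pow_le_pow_right₀ one_le_two
      (by rw [hB2]; nlinarith))) hc hB2pos hjle (le_trans (le_max_right _ _) hLe)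
  have : Real.exp (-2) ≤ 1 / 4 := by
    have h := Real.exp_neg_one_lt_half
    have h2 : Real.exp (-2) = Real.exp (-1) * Real.exp (-1) := by rw [← Real.exp_add]; norm_num
    rw [h2]
    nlinarith [Real.exp_pos (-1)]
  linarith

end Vale.Agent.P309
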