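import Mathlib
import Vale.Agent.P309.Main

/-
From learners with a stopping flag and a random seed to `value`.
-/

namespace Vale.Agent.P309

open MeasureTheory ProbabilityTheory Metric
open scoped RealInnerProductSpace ENNReal NNReal

variable {d N T : ℕ}

/-- memory value and stopping flag as one state -/
def flagEquiv (N : ℕ) : Fin N × Bool ≃ Fin (N * 2) :=
  ((Equiv.refl (Fin N)).prodCongr finTwoEquiv.symm).trans finProdFinEquiv

/-- one-state-space form of a learner, idle from index `T` on -/
def flatStep (T : ℕ) (step : ℕ → Fin N → EuclideanSpace ℝ (Fin d) → ℝ → Fin N × Bool) :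
    ℕ → Fin (N * 2) → EuclideanSpace ℝ (Fin d) → ℝ → Fin (N * 2) :=
  fun t z x y => if T ≤ t ∨ ((flagEquiv N).symm z).2 = true then z
    else flagEquiv N (step t ((flagEquiv N).symm z).1 x y)

lemma measurable_flatStep {step : ℕ → Fin N → EuclideanSpace ℝ (Fin d) → ℝ → Fin N × Bool}
    (hstep : ∀ t q, Measurable fun p : EuclideanSpace ℝ (Fin d) × ℝ => step t q p.1 p.2) (t : ℕ) (z : Fin (N * 2)) :
    Measurable fun p : EuclideanSpace ℝ (Fin d) × ℝ => flatStep T step t z p.1 p.2 := by
  unfold flatStep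
  split_ifs with h
  · exact measurable_const
  · exact (measurable_of_countable _).comp (hstep t _)

lemma blockState_flat (step : ℕ → Fin N → EuclideanSpace ℝ (Fin d) → ℝ → Fin N × Bool) (q0 : Fin N) (s : EuclideanSpace ℝ (Fin d))
    (x : ℕ → EuclideanSpace ℝ (Fin d)) : ∀ k t, t + k ≤ T →
      blockState (flatStep T step) k t (flagEquiv N (runState step q0 s x t))
          (fun i : Fin k => x (t + i)) (labels (fun i : Fin k => x (t + i)) s)
        = flagEquiv N (runState step q0 s x (t + k)) := by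
  intro k
  induction k with
  | zero => intro t _; rfl
  | succ k ih =>
    intro t ht
    rw [blockState, show t + (k + 1) = t + 1 + k by omega, ← ih (t + 1) (by omega)]
    congr 1
    · rw [runState]
      simp only [flatStep, Equiv.symm_apply_apply, labels, Fin.val_zero, Nat.add_zero,
        show ¬ T ≤ t by omega, false_or]
      split_ifs <;> rfl
    · funext i; simp only [Fin.tail, Fin.val_succ]; congr 1; omega
    · funext i; simp only [Fin.tail, labels, Fin.val_succ]; congr 2; omega

lemma value_flat (step : ℕ → Fin N → EuclideanSpace ℝ (Fin d) → ℝ → Fin N × Bool)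
    (hstep : ∀ t q, Measurable fun p : EuclideanSpace ℝ (Fin d) × ℝ => step t q p.1 p.2) (out : Fin N → EuclideanSpace ℝ (Fin d)) (ε : ℝ)
    (q0 : Fin N) (s : EuclideanSpace ℝ (Fin d)) :
    value (flatStep T step) (fun z => out ((flagEquiv N).symm z).1) ε T 0
        (flagEquiv N (q0, false)) s
      = ∫⁻ X, {X : Fin T → EuclideanSpace ℝ (Fin d) | ‖out (finalState step q0 s X) - s‖ ≤ ε}.indicator 1 X
          ∂Measure.pi (fun _ : Fin T => stdGaussian (EuclideanSpace ℝ (Fin d))) := by
  have h := value_block (out := fun z => out ((flagEquiv N).symm z).1) (ε := ε)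
    (fun t z => measurable_flatStep (T := T) hstep t z) 0 T 0 (flagEquiv N (q0, false)) s
  rw [Nat.zero_add T] at h
  rw [h]
  refine lintegral_congr fun X => ?_
  set x : ℕ → EuclideanSpace ℝ (Fin d) := fun t => if h : t < T then X ⟨t, h⟩ else 0 with hx
  have hX : (fun i : Fin T => x (0 + (i:ℕ))) = X := by
    funext i; simp [hx, i.2]
  have hb := blockState_flat (T := T) step q0 s x T 0 (by omega)
  rw [hX, Nat.zero_add T] at hb
  rw [show flagEquiv N (q0, false) = flagEquiv N (runState step q0 s x 0) from rfl, hb, value]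
  simp only [Equiv.symm_apply_apply, Set.indicator, mem_closedBall, dist_eq_norm,
    Set.mem_ofPred_eq, norm_sub_rev s, Pi.one_apply]
  rfl

variable {Ω : Type*} [MeasurableSpace Ω]

lemma measurable_runState {step : ℕ → Ω → Fin N → EuclideanSpace ℝ (Fin d) → ℝ → Fin N × Bool} {init : Ω → Fin N}
    (hinit : Measurable init)
    (hstep : ∀ t q, Measurable fun p : Ω × EuclideanSpace ℝ (Fin d) × ℝ => step t p.1 q p.2.1 p.2.2) :
    ∀ t, Measurable fun p : Ω × EuclideanSpace ℝ (Fin d) × (Fin T → EuclideanSpace ℝ (Fin d)) =>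
      runState (fun t => step t p.1) (init p.1) p.2.1
        (fun t => if h : t < T then p.2.2 ⟨t, h⟩ else 0) t := by
  intro t
  induction t with
  | zero => exact (hinit.comp measurable_fst).prodMk measurable_const
  | succ t ih =>
    have hx : Measurable fun p : Ω × EuclideanSpace ℝ (Fin d) × (Fin T → EuclideanSpace ℝ (Fin d)) =>
        (if h : t < T then p.2.2 ⟨t, h⟩ else 0 : EuclideanSpace ℝ (Fin d)) := by
      by_cases h : t < T
      · simp only [h, dif_pos]; fun_prop
      · simp only [h, dif_neg, not_false_eq_true]; exact measurable_const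
    have h1 : Measurable fun z : (Fin N × Bool) × (Ω × EuclideanSpace ℝ (Fin d) × ℝ) =>
        if z.1.2 then z.1 else step t z.2.1 z.1.1 z.2.2.1 z.2.2.2 := by
      refine measurable_from_prod_countable_right fun r => ?_
      show Measurable fun z : Ω × EuclideanSpace ℝ (Fin d) × ℝ => if r.2 then r else step t z.1 r.1 z.2.1 z.2.2
      cases r.2
      · simpa using hstep t r.1
      · simpa using measurable_const
    exact h1.comp (ih.prodMk (measurable_fst.prodMk (hx.prodMk
      (Measurable.inner hx (measurable_snd.fst)))))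

lemma measurableSet_success {step : ℕ → Ω → Fin N → EuclideanSpace ℝ (Fin d) → ℝ → Fin N × Bool} {init : Ω → Fin N}
    {out : Ω → Fin N → EuclideanSpace ℝ (Fin d)} (hinit : Measurable init)
    (hstep : ∀ t q, Measurable fun p : Ω × EuclideanSpace ℝ (Fin d) × ℝ => step t p.1 q p.2.1 p.2.2)
    (hout : ∀ q, Measurable fun ω => out ω q) (ε : ℝ) :
    MeasurableSet {p : Ω × EuclideanSpace ℝ (Fin d) × (Fin T → EuclideanSpace ℝ (Fin d)) |
      ‖out p.1 (finalState (fun t => step t p.1) (init p.1) p.2.1 p.2.2) - p.2.1‖ ≤ ε} := by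
  have h1 : Measurable fun z : Fin N × (Ω × EuclideanSpace ℝ (Fin d)) => ‖out z.2.1 z.1 - z.2.2‖ :=
    measurable_from_prod_countable_right fun q =>
      (((hout q).comp measurable_fst).sub measurable_snd).norm
  have h2 : Measurable fun p : Ω × EuclideanSpace ℝ (Fin d) × (Fin T → EuclideanSpace ℝ (Fin d)) =>
      finalState (fun t => step t p.1) (init p.1) p.2.1 p.2.2 :=
    measurable_fst.comp (measurable_runState (T := T) hinit hstep T)
  have h3 : Measurable fun p : Ω × EuclideanSpace ℝ (Fin d) × (Fin T → EuclideanSpace ℝ (Fin d)) => (p.1, p.2.1) :=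
    measurable_fst.prodMk (measurable_fst.comp measurable_snd)
  have h4 : Measurable fun p : Ω × EuclideanSpace ℝ (Fin d) × (Fin T → EuclideanSpace ℝ (Fin d)) =>
      (finalState (fun t => step t p.1) (init p.1) p.2.1 p.2.2, (p.1, p.2.1)) := h2.prodMk h3
  have h5 := Measurable.comp h1 h4
  exact measurableSet_le h5 measurable_const

lemma success_le_half {C : ℝ} (hC : 0 ≤ C) : ∃ c ε0 : ℝ, ∃ d0 : ℕ, 0 < c ∧ 0 < ε0 ∧ 100 ≤ d0 ∧
    ∀ d, d0 ≤ d → ∀ ε : ℝ, 0 < ε → ε ≤ ε0 → ∀ N T : ℕ, (N:ℝ) ≤ 2 ^ (C * (d:ℝ) ^ 2) →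
      (T:ℝ) < c * d * Real.log (1 / ε) →
      ∀ (Ω : Type*) [MeasurableSpace Ω] (P : Measure Ω) [IsProbabilityMeasure P]
        (init : Ω → Fin N)
        (step : ℕ → Ω → Fin N → EuclideanSpace ℝ (Fin d) → ℝ → Fin N × Bool)
        (out : Ω → Fin N → EuclideanSpace ℝ (Fin d)),
        Measurable init →
        (∀ t q, Measurable fun p : Ω × EuclideanSpace ℝ (Fin d) × ℝ =>
          step t p.1 q p.2.1 p.2.2) →
        (∀ q, Measurable fun ω => out ω q) →
        P.prod ((uniformSphere d).prod
            (Measure.pi fun _ : Fin T => stdGaussian (EuclideanSpace ℝ (Fin d))))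
          {p | ‖out p.1 (finalState (fun t => step t p.1) (init p.1) p.2.1 p.2.2) - p.2.1‖ ≤ ε}
          ≤ ENNReal.ofReal (1 / 2) := by
  obtain ⟨c, ε0, d0, hc, hε0, -, hd0, h⟩ := core C hC
  refine ⟨c, ε0, d0, hc, hε0, hd0, ?_⟩
  intro d hd ε hε hεle N T hN hT Ω _ P _ init step out hinit hstep hout
  haveI := sphere_prob (d := d) (by omega)
  have hS := measurableSet_success (T := T) hinit hstep hout ε
  have hN2 : ((N * 2 : ℕ) : ℝ) ≤ 2 ^ (C * (d:ℝ) ^ 2 + 1) := by
    rw [Real.rpow_add_one two_ne_zero]; push_cast; gcongr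
  rw [Measure.prod_apply hS]
  refine le_trans (lintegral_mono fun ω => ?_)
    (le_of_eq (show ∫⁻ _ω, ENNReal.ofReal (1 / 2) ∂P = _ by simp))
  have hs : ∀ t q, Measurable fun p : EuclideanSpace ℝ (Fin d) × ℝ => step t ω q p.1 p.2 :=
    fun t q => (hstep t q).comp (f := fun p : EuclideanSpace ℝ (Fin d) × ℝ => (ω, p.1, p.2))
      (by fun_prop)
  have hcore := h d hd ε hε hεle (N * 2) T hN2 hT (flatStep T fun t => step t ω)
    (fun z => out ω ((flagEquiv N).symm z).1) (flagEquiv N (init ω, false))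
    (measurable_flatStep hs) (fun t ht q x y => by simp [flatStep, ht])
  refine le_trans (le_of_eq ?_) hcore
  rw [Measure.prod_apply (measurable_prodMk_left hS)]
  refine lintegral_congr fun s => ?_
  rw [value_flat (fun t => step t ω) hs, lintegral_indicator_one]
  · rfl
  · exact measurable_prodMk_left (measurable_prodMk_left hS)

/-- the uniform law lives on the unit sphere -/
lemma sphere_norm : ∀ᵐ s ∂uniformSphere d, ‖s‖ = 1 := by
  rw [uniformSphere, ae_map_iff measurable_subtype_coe.aemeasurable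
    (measurableSet_eq_fun measurable_norm measurable_const)]
  exact Filter.Eventually.of_forall fun s => by simpa using s.2

/-- a small angle gives a small distance -/
lemma norm_sub_le_of_arccos {a b : EuclideanSpace ℝ (Fin d)} {ε : ℝ} (ha : ‖a‖ = 1) (hb : ‖b‖ = 1)
    (h : Real.arccos ⟪a, b⟫ ≤ ε) : ‖a - b‖ ≤ ε := by
  have hab : |⟪a, b⟫| ≤ 1 := by
    have := abs_real_inner_le_norm a b; rwa [ha, hb, mul_one] at this
  obtain ⟨h1, h2⟩ := abs_le.1 hab
  have h3 := Real.one_sub_sq_div_two_le_cos (x := Real.arccos ⟪a, b⟫)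
  rw [Real.cos_arccos h1 h2] at h3
  have h4 : Real.arccos ⟪a, b⟫ ^ 2 ≤ ε ^ 2 := pow_le_pow_left₀ (Real.arccos_nonneg _) h 2
  have h5 : ‖a - b‖ ^ 2 = 2 - 2 * ⟪a, b⟫ := by
    rw [norm_sub_sq_real, ha, hb]; ring
  refine le_of_pow_le_pow_left₀ two_ne_zero ((Real.arccos_nonneg _).trans h) ?_
  linarith

end Vale.Agent.P309
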