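import Mathlib
import Vale.Agent.P309.Bridge

/-
A matching learner: the Kaczmarz iteration kept on a grid.
-/

namespace Vale.Agent.P309

open MeasureTheory ProbabilityTheory Metric
open scoped RealInnerProductSpace ENNReal NNReal

variable {d : ℕ}

/-- grid point with index vector `f` -/
noncomputable def gridDec (m : ℕ) (f : Fin d → Fin (2 * m + 1)) : EuclideanSpace ℝ (Fin d) :=
  WithLp.toLp 2 fun i => ((f i : ℕ) : ℝ) / m - 1

/-- index vector of a nearby grid point, after clipping to the cube -/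
noncomputable def gridEnc (m : ℕ) (v : EuclideanSpace ℝ (Fin d)) (i : Fin d) : Fin (2 * m + 1) :=
  ⟨min ⌊(max (-1) (min 1 (v i)) + 1) * m⌋₊ (2 * m), by omega⟩

lemma measurable_gridEnc (m : ℕ) : Measurable (gridEnc (d := d) m) := by
  refine measurable_pi_lambda _ fun i => ?_
  have h : Measurable fun v : EuclideanSpace ℝ (Fin d) =>
      ⌊(max (-1) (min 1 (v i)) + 1) * (m : ℝ)⌋₊ := Nat.measurable_floor.comp (by fun_prop)
  exact (measurable_of_countable fun n : ℕ =>
    (⟨min n (2 * m), by omega⟩ : Fin (2 * m + 1))).comp h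

lemma coord_close {m : ℕ} (hm : 0 < m) (v : EuclideanSpace ℝ (Fin d)) (i : Fin d) {b : ℝ}
    (hb : |b| ≤ 1) :
    |gridDec m (gridEnc m v) i - b| ≤ |v i - b| + 1 / m := by
  set w := max (-1) (min 1 (v i)) with hw
  have hw1 : -1 ≤ w := le_max_left _ _
  have hw2 : w ≤ 1 := max_le (by norm_num) (min_le_left _ _)
  have hwb : |w - b| ≤ |v i - b| := by
    obtain ⟨b1, b2⟩ := abs_le.1 hb
    rcases le_total (v i) 1 with h1 | h1 <;> rcases le_total (-1) (v i) with h2 | h2
    · rw [hw, min_eq_right h1, max_eq_right h2]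
    · rw [hw, min_eq_right h1, max_eq_left h2, abs_of_nonpos (by linarith),
        abs_of_nonpos (by linarith)]
      linarith
    · rw [hw, min_eq_left h1, max_eq_right (by norm_num), abs_of_nonneg (by linarith),
        abs_of_nonneg (by linarith)]
      linarith
    · linarith
  have hmR : (0:ℝ) < m := by exact_mod_cast hm
  have hfl : ⌊(w + 1) * m⌋₊ ≤ 2 * m := Nat.floor_le_of_le (by push_cast; nlinarith)
  have h1 : (⌊(w + 1) * m⌋₊ : ℝ) ≤ (w + 1) * m :=
    Nat.floor_le (mul_nonneg (by linarith) hmR.le)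
  have h2 : (w + 1) * m < ⌊(w + 1) * m⌋₊ + 1 := Nat.lt_floor_add_one _
  have e : gridDec m (gridEnc m v) i = (⌊(w + 1) * m⌋₊ : ℝ) / m - 1 := by
    simp only [gridDec, gridEnc, ← hw, min_eq_left hfl]
  have h3 : |gridDec m (gridEnc m v) i - w| ≤ 1 / m := by
    have e2 : (⌊(w + 1) * m⌋₊ : ℝ) / m - 1 - w = ((⌊(w + 1) * m⌋₊ : ℝ) - (w + 1) * m) / m := by
      generalize (⌊(w + 1) * m⌋₊ : ℝ) = F
      field_simp
      ring
    rw [e, e2, abs_div, abs_of_pos hmR]
    refine div_le_div_of_nonneg_right ?_ hmR.le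
    rw [abs_le]
    constructor <;> linarith
  have := abs_sub_le (gridDec m (gridEnc m v) i) w b
  linarith

lemma grid_close {m : ℕ} (hm : 0 < m) (v s : EuclideanSpace ℝ (Fin d)) (hs : ‖s‖ ≤ 1) :
    ‖gridDec m (gridEnc m v) - s‖ ≤ ‖v - s‖ + d / m := by
  classical
  have hmR : (0:ℝ) < m := by exact_mod_cast hm
  set a : EuclideanSpace ℝ (Fin d) := WithLp.toLp 2 fun i => |v i - s i| with ha
  set b : EuclideanSpace ℝ (Fin d) := WithLp.toLp 2 fun _ => (1:ℝ) / m with hb
  have h1 : ‖gridDec m (gridEnc m v) - s‖ ≤ ‖a + b‖ := by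
    rw [EuclideanSpace.norm_eq, EuclideanSpace.norm_eq]
    refine Real.sqrt_le_sqrt (Finset.sum_le_sum fun i _ => ?_)
    simp only [Real.norm_eq_abs, PiLp.sub_apply, PiLp.add_apply, ha, hb]
    refine pow_le_pow_left₀ (abs_nonneg _) ?_ 2
    rw [abs_of_nonneg (a := |v i - s i| + 1 / (m:ℝ)) (by positivity)]
    exact coord_close hm v i (((PiLp.norm_apply_le s i)).trans hs)
  have h2 : ‖a‖ = ‖v - s‖ := by
    rw [EuclideanSpace.norm_eq, EuclideanSpace.norm_eq]
    simp [ha]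
  have h3 : ‖b‖ ≤ d / m := by
    refine le_of_pow_le_pow_left₀ two_ne_zero (by positivity) ?_
    rw [EuclideanSpace.norm_sq_eq]
    simp only [hb, Real.norm_eq_abs, sq_abs, Finset.sum_const, Finset.card_univ, Fintype.card_fin,
      nsmul_eq_mul, div_pow, one_pow]
    rcases Nat.eq_zero_or_pos d with rfl | hd
    · simp
    · have : (1:ℝ) ≤ d := by exact_mod_cast hd
      rw [mul_one_div]
      exact div_le_div_of_nonneg_right (by nlinarith) (by positivity)
  exact h1.trans ((norm_add_le _ _).trans (by linarith))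

lemma gauss_ne_zero (hd : 1 ≤ d) :
    ∀ᵐ x ∂stdGaussian (EuclideanSpace ℝ (Fin d)), x ≠ 0 := by
  haveI : Nonempty (Fin d) := ⟨⟨0, by omega⟩⟩
  set e := EuclideanSpace.single (⟨0, by omega⟩ : Fin d) (1:ℝ)
  have he : ‖e‖ = 1 := by simp [e]
  have h := smallball_step (E := EuclideanSpace ℝ (Fin d)) (e := e) (v := e) he
    (by rw [real_inner_self_eq_norm_sq, he]; norm_num) MeasurableSet.univ (fun _ _ => Iff.rfl) 0
  rw [zero_div, ENNReal.ofReal_zero, zero_mul, Set.univ_inter] at h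
  rw [ae_iff]
  refine measure_mono_null (fun x hx => ?_) (le_antisymm h zero_le)
  simp only [not_not, Set.mem_ofPred_eq] at hx ⊢
  simp [hx]

lemma gauss_proj (hd : 1 ≤ d) (e : EuclideanSpace ℝ (Fin d)) :
    ∫⁻ x, ENNReal.ofReal (⟪x, e⟫ ^ 2 / ‖x‖ ^ 2) ∂stdGaussian (EuclideanSpace ℝ (Fin d))
      = ENNReal.ofReal (‖e‖ ^ 2 / d) := by
  classical
  set g : EuclideanSpace ℝ (Fin d) → ℝ≥0∞ := fun e =>
    ∫⁻ x, ENNReal.ofReal (⟪x, e⟫ ^ 2 / ‖x‖ ^ 2) ∂stdGaussian (EuclideanSpace ℝ (Fin d)) with hg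
  have hrot : ∀ v w : EuclideanSpace ℝ (Fin d), ‖v‖ = ‖w‖ → g v = g w := by
    intro v w h
    set f := Submodule.reflection (ℝ ∙ (v - w))ᗮ with hf
    have hfv : f v = w := Submodule.reflection_sub h
    simp only [hg]
    conv_rhs => rw [← stdGaussian_map f, lintegral_map (by fun_prop) (by fun_prop)]
    refine lintegral_congr fun x => ?_
    rw [← hfv, LinearIsometryEquiv.inner_map_map, LinearIsometryEquiv.norm_map]
  set i0 : Fin d := ⟨0, by omega⟩
  set u : ℝ≥0∞ := g (EuclideanSpace.single i0 (1:ℝ)) with hu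
  have hsum : (d : ℝ≥0∞) * u = 1 := by
    have h1 : ∀ i, g (EuclideanSpace.single i (1:ℝ)) = u := fun i => hrot _ _ (by simp)
    calc (d : ℝ≥0∞) * u = ∑ i : Fin d, g (EuclideanSpace.single i (1:ℝ)) := by
          rw [Finset.sum_congr rfl fun i _ => h1 i, Finset.sum_const, Finset.card_univ,
            Fintype.card_fin, nsmul_eq_mul]
      _ = ∫⁻ x, ∑ i : Fin d, ENNReal.ofReal (⟪x, EuclideanSpace.single i (1:ℝ)⟫ ^ 2 / ‖x‖ ^ 2)
            ∂stdGaussian (EuclideanSpace ℝ (Fin d)) := by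
          rw [lintegral_finsetSum _ fun i _ => by fun_prop]
      _ = ∫⁻ _x, 1 ∂stdGaussian (EuclideanSpace ℝ (Fin d)) := by
          refine lintegral_congr_ae ((gauss_ne_zero hd).mono fun x hx => ?_)
          dsimp only
          rw [← ENNReal.ofReal_sum_of_nonneg (fun i _ => by positivity), ← Finset.sum_div]
          have : ∑ i : Fin d, ⟪x, EuclideanSpace.single i (1:ℝ)⟫ ^ 2 = ‖x‖ ^ 2 := by
            rw [EuclideanSpace.norm_sq_eq]
            simp [EuclideanSpace.inner_single_right]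
          rw [this, div_self (pow_ne_zero 2 (norm_ne_zero_iff.2 hx)), ENNReal.ofReal_one]
      _ = 1 := by simp
  have hu' : u = ENNReal.ofReal (1 / d) := by
    have hd0 : (0:ℝ) < d := by exact_mod_cast (show 0 < d by omega)
    rw [one_div, ENNReal.ofReal_inv_of_pos hd0, ENNReal.ofReal_natCast]
    exact ENNReal.eq_inv_of_mul_eq_one_left (by rw [mul_comm]; exact hsum)
  show g e = _
  rw [hrot e (‖e‖ • EuclideanSpace.single i0 (1:ℝ)) (by simp [norm_smul]),
    show ‖e‖ ^ 2 / (d:ℝ) = ‖e‖ ^ 2 * (1 / d) by ring, ENNReal.ofReal_mul (sq_nonneg _), ← hu', hu]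
  simp only [hg]
  rw [← lintegral_const_mul _ (by fun_prop)]
  refine lintegral_congr fun x => ?_
  rw [← ENNReal.ofReal_mul (sq_nonneg _), real_inner_smul_right]
  congr 1; ring

/-- one Kaczmarz step -/
noncomputable def kacz (z x : EuclideanSpace ℝ (Fin d)) (y : ℝ) : EuclideanSpace ℝ (Fin d) :=
  z + ((y - ⟪x, z⟫) / ‖x‖ ^ 2) • x

lemma kacz_le (z x s : EuclideanSpace ℝ (Fin d)) :
    ‖kacz z x ⟪x, s⟫ - s‖ + ⟪x, z - s⟫ ^ 2 / ‖x‖ ^ 2 / (2 * ‖z - s‖) ≤ ‖z - s‖ := by
  rcases eq_or_ne (z - s) 0 with h | h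
  · have : z = s := sub_eq_zero.1 h
    subst this
    simp [kacz]
  have hu : 0 < ‖z - s‖ := norm_pos_iff.2 h
  set w := ⟪x, z - s⟫ ^ 2 / ‖x‖ ^ 2 with hw
  have hwu : w ≤ ‖z - s‖ ^ 2 := by
    rcases eq_or_ne x 0 with rfl | hx
    · simp [hw]
    · rw [hw, div_le_iff₀ (by positivity), ← sq_abs, ← mul_pow]
      refine pow_le_pow_left₀ (abs_nonneg _) ?_ 2
      rw [mul_comm]; exact abs_real_inner_le_norm _ _
  have hw0 : 0 ≤ w := by positivity
  have hsq : ‖kacz z x ⟪x, s⟫ - s‖ ^ 2 = ‖z - s‖ ^ 2 - w := by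
    have e : kacz z x ⟪x, s⟫ - s = (z - s) - (⟪x, z - s⟫ / ‖x‖ ^ 2) • x := by
      simp only [kacz, inner_sub_right]
      rw [show (⟪x, s⟫ - ⟪x, z⟫) / ‖x‖ ^ 2 = -((⟪x, z⟫ - ⟪x, s⟫) / ‖x‖ ^ 2) by ring, neg_smul]
      abel
    rw [e, norm_sub_sq_real, real_inner_smul_right, norm_smul, Real.norm_eq_abs, mul_pow, sq_abs,
      real_inner_comm x (z - s), hw]
    rcases eq_or_ne x 0 with rfl | hx
    · simp
    · field_simp; ring
  have hq : w / (2 * ‖z - s‖) ≤ ‖z - s‖ := by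
    rw [div_le_iff₀ (by positivity)]; nlinarith
  rw [← le_sub_iff_add_le]
  refine le_of_pow_le_pow_left₀ two_ne_zero (by linarith) ?_
  rw [hsq, sub_sq]
  have h1 : 2 * ‖z - s‖ * (w / (2 * ‖z - s‖)) = w := by field_simp
  rw [h1]
  linarith [sq_nonneg (w / (2 * ‖z - s‖))]

lemma kacz_expect (hd : 1 ≤ d) (z s : EuclideanSpace ℝ (Fin d)) :
    ∫⁻ x, ENNReal.ofReal ‖kacz z x ⟪x, s⟫ - s‖ ∂stdGaussian (EuclideanSpace ℝ (Fin d))
      ≤ ENNReal.ofReal ((1 - 1 / (2 * d)) * ‖z - s‖) := by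
  set u := ‖z - s‖ with hu
  rcases eq_or_ne (z - s) 0 with h | h
  · have : z = s := sub_eq_zero.1 h
    subst this
    simp [kacz, hu]
  have hupos : 0 < u := norm_pos_iff.2 h
  have hm : Measurable fun x : EuclideanSpace ℝ (Fin d) =>
      ENNReal.ofReal (⟪x, z - s⟫ ^ 2 / ‖x‖ ^ 2 / (2 * u)) := by fun_prop
  have hw : ∫⁻ x, ENNReal.ofReal (⟪x, z - s⟫ ^ 2 / ‖x‖ ^ 2 / (2 * u))
      ∂stdGaussian (EuclideanSpace ℝ (Fin d)) = ENNReal.ofReal (u / (2 * d)) := by
    have e : ∀ x : EuclideanSpace ℝ (Fin d),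
        ENNReal.ofReal (⟪x, z - s⟫ ^ 2 / ‖x‖ ^ 2 / (2 * u))
          = ENNReal.ofReal (1 / (2 * u)) * ENNReal.ofReal (⟪x, z - s⟫ ^ 2 / ‖x‖ ^ 2) := fun x => by
      rw [← ENNReal.ofReal_mul (by positivity)]; congr 1; ring
    simp only [e]
    rw [lintegral_const_mul _ (by fun_prop), gauss_proj hd, ← ENNReal.ofReal_mul (by positivity),
      ← hu]
    congr 1; field_simp
  have htot : ∫⁻ x, ENNReal.ofReal ‖kacz z x ⟪x, s⟫ - s‖ ∂stdGaussian (EuclideanSpace ℝ (Fin d))
      + ENNReal.ofReal (u / (2 * d)) ≤ ENNReal.ofReal u := by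
    rw [← hw, ← lintegral_add_right _ hm]
    calc _ ≤ ∫⁻ _x, ENNReal.ofReal u ∂stdGaussian (EuclideanSpace ℝ (Fin d)) := by
          refine lintegral_mono fun x => ?_
          rw [← ENNReal.ofReal_add (norm_nonneg _) (by positivity)]
          exact ENNReal.ofReal_le_ofReal (kacz_le z x s)
      _ = _ := by simp
  rw [show (1 - 1 / (2 * (d:ℝ))) * u = u - u / (2 * d) by ring,
    ENNReal.ofReal_sub _ (by positivity)]
  exact ENNReal.le_sub_of_add_le_right ENNReal.ofReal_ne_top htot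

/-- memory size of the grid learner -/
def gridEquiv (d m : ℕ) : (Fin d → Fin (2 * m + 1)) ≃ Fin ((2 * m + 1) ^ d) := finFunctionFinEquiv

/-- the grid learner, which never stops -/
noncomputable def gridStep (d m : ℕ) :
    ℕ → Fin ((2 * m + 1) ^ d) → EuclideanSpace ℝ (Fin d) → ℝ → Fin ((2 * m + 1) ^ d) :=
  fun _ q x y => gridEquiv d m (gridEnc m (kacz (gridDec m ((gridEquiv d m).symm q)) x y))

lemma measurable_gridStep (d m t : ℕ) (q : Fin ((2 * m + 1) ^ d)) :
    Measurable fun p : EuclideanSpace ℝ (Fin d) × ℝ => gridStep d m t q p.1 p.2 := by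
  unfold gridStep kacz
  exact (measurable_of_countable _).comp ((measurable_gridEnc m).comp (by fun_prop))

lemma grid_value (hd : 1 ≤ d) {m : ℕ} (hm : 0 < m) {ε : ℝ} (hε : 0 < ε)
    {s : EuclideanSpace ℝ (Fin d)} (hs : ‖s‖ ≤ 1) : ∀ n t q,
    1 ≤ value (gridStep d m) (fun q => gridDec m ((gridEquiv d m).symm q)) ε n t q s
      + ENNReal.ofReal (((1 - 1 / (2 * d)) ^ n * ‖gridDec m ((gridEquiv d m).symm q) - s‖
          + n * (d / m)) / ε) := by
  have hdR : (1:ℝ) ≤ d := by exact_mod_cast hd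
  have ha0 : (0:ℝ) ≤ 1 - 1 / (2 * d) := by
    rw [sub_nonneg, div_le_one (by positivity)]; linarith
  have ha1 : 1 - 1 / (2 * (d:ℝ)) ≤ 1 := by
    have : (0:ℝ) ≤ 1 / (2 * d) := by positivity
    linarith
  intro n
  induction n with
  | zero =>
    intro t q
    simp only [value, pow_zero, one_mul, Nat.cast_zero, zero_mul, add_zero]
    by_cases h : s ∈ closedBall (gridDec m ((gridEquiv d m).symm q)) ε
    · rw [Set.indicator_of_mem h]; exact le_self_add
    · refine le_trans ?_ le_add_self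
      rw [ENNReal.one_le_ofReal, one_le_div hε]
      rw [mem_closedBall, dist_eq_norm, norm_sub_rev, not_le] at h
      exact h.le
  | succ n ih =>
    intro t q
    set z := gridDec m ((gridEquiv d m).symm q)
    set a := 1 - 1 / (2 * (d:ℝ))
    set B : EuclideanSpace ℝ (Fin d) → ℝ≥0∞ := fun x =>
      ENNReal.ofReal (a ^ n / ε) * ENNReal.ofReal ‖kacz z x ⟪x, s⟫ - s‖
        + ENNReal.ofReal ((a ^ n * (d / m) + n * (d / m)) / ε)
    have hB : Measurable B := by
      simp only [B, kacz]; fun_prop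
    calc (1:ℝ≥0∞) = ∫⁻ _x, 1 ∂stdGaussian (EuclideanSpace ℝ (Fin d)) := by simp
      _ ≤ ∫⁻ x, (value (gridStep d m) (fun q => gridDec m ((gridEquiv d m).symm q)) ε n (t + 1)
            (gridStep d m t q x ⟪x, s⟫) s + B x) ∂stdGaussian (EuclideanSpace ℝ (Fin d)) := by
          refine lintegral_mono fun x => (ih (t + 1) _).trans (add_le_add le_rfl ?_)
          simp only [B]
          rw [← ENNReal.ofReal_mul (by positivity),
            ← ENNReal.ofReal_add (by positivity) (by positivity)]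
          refine ENNReal.ofReal_le_ofReal ?_
          rw [div_mul_eq_mul_div, ← add_div]
          refine div_le_div_of_nonneg_right ?_ hε.le
          have h1 : ‖gridDec m ((gridEquiv d m).symm (gridStep d m t q x ⟪x, s⟫)) - s‖
              ≤ ‖kacz z x ⟪x, s⟫ - s‖ + d / m := by
            simp only [gridStep, Equiv.symm_apply_apply]
            exact grid_close hm _ s hs
          have h2 := mul_le_mul_of_nonneg_left h1 (pow_nonneg ha0 n)
          linarith
      _ ≤ _ := by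
          rw [lintegral_add_right _ hB]
          refine add_le_add le_rfl ?_
          simp only [B]
          rw [lintegral_add_right _ measurable_const, lintegral_const_mul _ (by unfold kacz; fun_prop),
            lintegral_const, measure_univ, mul_one]
          refine (add_le_add (mul_le_mul_right (kacz_expect hd z s) _) le_rfl).trans ?_
          rw [← ENNReal.ofReal_mul (by positivity),
            ← ENNReal.ofReal_add (by positivity) (by positivity)]
          refine ENNReal.ofReal_le_ofReal ?_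
          rw [div_mul_eq_mul_div, ← add_div]
          refine div_le_div_of_nonneg_right ?_ hε.le
          have h3 : a ^ n * ((d:ℝ) / m) ≤ 1 * (d / m) := by
            gcongr; exact pow_le_one₀ ha0 ha1
          rw [pow_succ]; push_cast
          linarith

/-- a small distance gives a small angle, after normalising -/
lemma arccos_le_of_norm {o s : EuclideanSpace ℝ (Fin d)} (ho : ‖o‖ = 1) (hs : ‖s‖ = 1) :
    Real.arccos ⟪o, s⟫ ≤ 2 * ‖o - s‖ := by
  have hab : |⟪o, s⟫| ≤ 1 := by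
    have := abs_real_inner_le_norm o s; rwa [ho, hs, mul_one] at this
  obtain ⟨h1, h2⟩ := abs_le.1 hab
  have h3 := Real.cos_le_one_sub_mul_cos_sq (x := Real.arccos ⟪o, s⟫)
    (by rw [abs_of_nonneg (Real.arccos_nonneg _)]; exact Real.arccos_le_pi _)
  rw [Real.cos_arccos h1 h2] at h3
  have h5 : ‖o - s‖ ^ 2 = 2 - 2 * ⟪o, s⟫ := by
    rw [norm_sub_sq_real, ho, hs]; ring
  refine le_of_pow_le_pow_left₀ two_ne_zero (by positivity) ?_
  have h6 : Real.pi ^ 2 ≤ 16 := by nlinarith [Real.pi_le_four, Real.pi_pos]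
  have h7 : 2 / 16 * Real.arccos ⟪o, s⟫ ^ 2 ≤ 2 / Real.pi ^ 2 * Real.arccos ⟪o, s⟫ ^ 2 := by
    gcongr
  nlinarith

/-- unit vector in the direction of `z`, or a fixed one -/
noncomputable def unitDir (hd : 1 ≤ d) (z : EuclideanSpace ℝ (Fin d)) : EuclideanSpace ℝ (Fin d) :=
  if z = 0 then EuclideanSpace.single ⟨0, hd⟩ 1 else ‖z‖⁻¹ • z

lemma unitDir_norm (hd : 1 ≤ d) (z : EuclideanSpace ℝ (Fin d)) : ‖unitDir hd z‖ = 1 := by
  unfold unitDir
  split_ifs with h
  · simp
  · simp [norm_smul, h]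

lemma unitDir_close (hd : 1 ≤ d) {z s : EuclideanSpace ℝ (Fin d)} (hs : ‖s‖ = 1) :
    ‖unitDir hd z - s‖ ≤ 2 * ‖z - s‖ := by
  unfold unitDir
  split_ifs with h
  · subst h
    refine (norm_sub_le _ _).trans ?_
    simp [hs]; norm_num
  · refine (norm_sub_le_norm_sub_add_norm_sub _ z _).trans ?_
    have e : ‖z‖⁻¹ • z - z = (‖z‖⁻¹ - 1) • z := by rw [sub_smul, one_smul]
    rw [e, norm_smul, Real.norm_eq_abs]
    have h0 : 0 < ‖z‖ := norm_pos_iff.2 h
    have : |‖z‖⁻¹ - 1| * ‖z‖ = |1 - ‖z‖| := by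
      rw [← abs_of_pos h0, ← abs_mul, abs_of_pos h0, sub_mul, inv_mul_cancel₀ h0.ne', one_mul]
    rw [this]
    have h1 : |‖s‖ - ‖z‖| ≤ ‖s - z‖ := abs_norm_sub_norm_le s z
    rw [hs, norm_sub_rev] at h1
    linarith

end Vale.Agent.P309
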