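import Mathlib
import Vale.Agent.P309.Upper

/-
The matching learner at given accuracy, and the memory below which no horizon suffices.
-/

namespace Vale.Agent.P309

open MeasureTheory ProbabilityTheory Metric
open scoped RealInnerProductSpace ENNReal NNReal

variable {d : ℕ}

lemma finalState_grid {N : ℕ} (f : ℕ → Fin N → EuclideanSpace ℝ (Fin d) → ℝ → Fin N) (T : ℕ)
    (q0 : Fin N) (s : EuclideanSpace ℝ (Fin d)) (X : Fin T → EuclideanSpace ℝ (Fin d)) :
    finalState (fun t q x y => (f t q x y, false)) q0 s X = blockState f T 0 q0 X (labels X s) := by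
  set x : ℕ → EuclideanSpace ℝ (Fin d) := fun t => if h : t < T then X ⟨t, h⟩ else 0 with hx
  have hflag : ∀ t, (runState (fun t q x y => (f t q x y, false)) q0 s x t).2 = false := by
    intro t
    induction t with
    | zero => rfl
    | succ t ih => simp [runState, ih]
  have key : ∀ k t, t + k ≤ T →
      blockState f k t (runState (fun t q x y => (f t q x y, false)) q0 s x t).1
          (fun i : Fin k => x (t + i)) (labels (fun i : Fin k => x (t + i)) s)
        = (runState (fun t q x y => (f t q x y, false)) q0 s x (t + k)).1 := by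
    intro k
    induction k with
    | zero => intros; rfl
    | succ k ih =>
      intro t ht
      rw [blockState, show t + (k + 1) = t + 1 + k by omega, ← ih (t + 1) (by omega)]
      congr 1
      · simp [runState, hflag t, labels]
      · funext i; simp only [Fin.tail, Fin.val_succ]; congr 1; omega
      · funext i; simp only [Fin.tail, labels, Fin.val_succ]; congr 2; omega
  have h := key T 0 (by omega)
  have hX : (fun i : Fin T => x (0 + (i:ℕ))) = X := by funext i; simp [hx, i.2]
  rw [hX, Nat.zero_add T] at h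
  exact h.symm

/-- a learner that succeeds -/
theorem grid_learner {ε : ℝ} (hd : 100 ≤ d) (hε : 0 < ε) (hε0 : ε ≤ 1 / 10) :
    ∃ N T : ℕ, (N:ℝ) ≤ 2 ^ (8 * (d:ℝ) * Real.log (d / ε)) ∧
      (T:ℝ) ≤ 15 * d * Real.log (1 / ε) ∧
      ∃ (q0 : Fin N) (step : ℕ → Fin N → EuclideanSpace ℝ (Fin d) → ℝ → Fin N × Bool)
        (out : Fin N → EuclideanSpace ℝ (Fin d)),
        (∀ t q, Measurable fun p : EuclideanSpace ℝ (Fin d) × ℝ => step t q p.1 p.2) ∧
        (∀ q, ‖out q‖ = 1) ∧
        ∀ s : EuclideanSpace ℝ (Fin d), ‖s‖ = 1 →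
          2 / 3 ≤ Measure.pi (fun _ : Fin T => stdGaussian (EuclideanSpace ℝ (Fin d)))
            {X | Real.arccos ⟪out (finalState step q0 s X), s⟫ ≤ ε} := by
  have hdR : (100:ℝ) ≤ d := by exact_mod_cast hd
  have hd1 : 1 ≤ d := by omega
  set L := Real.log (1 / ε) with hL
  have hexp : Real.exp 1 < 10 := by linarith [Real.exp_one_lt_d9]
  have hL1 : 1 ≤ L := by
    rw [hL, Real.le_log_iff_exp_le (by positivity)]
    have : (10:ℝ) ≤ 1 / ε := by rw [le_div_iff₀ hε]; linarith
    linarith
  set T := ⌈2 * (d:ℝ) * (L + 6)⌉₊ with hT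
  have hT1 : 2 * (d:ℝ) * (L + 6) ≤ T := Nat.le_ceil _
  have hT2 : (T:ℝ) < 2 * (d:ℝ) * (L + 6) + 1 := Nat.ceil_lt_add_one (by positivity)
  set m := ⌈100 * (T:ℝ) * d / ε⌉₊ with hm
  have hTpos : (0:ℝ) < T := lt_of_lt_of_le (by positivity) hT1
  have hmpos : 0 < m := Nat.ceil_pos.2 (by positivity)
  have hm1 : 100 * (T:ℝ) * d / ε ≤ m := Nat.le_ceil _
  have hm2 : (m:ℝ) < 100 * (T:ℝ) * d / ε + 1 := Nat.ceil_lt_add_one (by positivity)
  have hmR : (0:ℝ) < m := by exact_mod_cast hmpos
  refine ⟨(2 * m + 1) ^ d, T, ?_, ?_, gridEquiv d m (gridEnc m 0),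
    fun t q x y => (gridStep d m t q x y, false),
    fun q => unitDir hd1 (gridDec m ((gridEquiv d m).symm q)),
    fun t q => (measurable_gridStep d m t q).prodMk measurable_const,
    fun q => unitDir_norm hd1 _, ?_⟩
  · -- size of the memory
    set r := (d:ℝ) / ε with hr
    have hr1 : 1000 ≤ r := by rw [hr, le_div_iff₀ hε]; linarith
    have hLr : L ≤ r := by
      refine le_trans ?_ (Real.log_le_self (by positivity) : Real.log r ≤ r)
      rw [hL]
      refine Real.log_le_log (by positivity) ?_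
      rw [hr]; gcongr; linarith
    have hTr : (T:ℝ) ≤ 3 * r ^ 2 := by
      have h1 : (d:ℝ) ≤ r := by rw [hr, le_div_iff₀ hε]; nlinarith
      nlinarith
    have hbase : ((2 * m + 1 : ℕ) : ℝ) ≤ r ^ 5 := by
      push_cast
      have h1 : 100 * (T:ℝ) * d / ε = 100 * T * r := by rw [hr]; ring
      rw [h1] at hm2
      have h2 : (T:ℝ) * r ≤ 3 * r ^ 2 * r := by gcongr
      nlinarith [pow_le_pow_left₀ (by norm_num) hr1 2, pow_pos (show 0 < r by linarith) 3]
    have h8 : (5:ℝ) * Real.log r ≤ Real.log 2 * (8 * Real.log r) := by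
      have h1 : 0 ≤ Real.log r := Real.log_nonneg (by linarith)
      nlinarith [Real.log_two_gt_d9]
    calc (((2 * m + 1) ^ d : ℕ) : ℝ) ≤ (r ^ 5) ^ d := by rw [Nat.cast_pow]; gcongr
      _ = Real.exp ((d:ℝ) * (5 * Real.log r)) := by
          rw [Real.exp_nat_mul, show (5:ℝ) * Real.log r = (5:ℕ) * Real.log r by norm_num,
            Real.exp_nat_mul, Real.exp_log (by linarith)]
      _ ≤ Real.exp (Real.log 2 * (8 * d * Real.log r)) := by
          refine Real.exp_le_exp.2 ?_
          have := mul_le_mul_of_nonneg_left h8 (show (0:ℝ) ≤ d by positivity)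
          linarith
      _ = _ := (Real.rpow_def_of_pos two_pos _).symm
  · -- horizon: 2 d (L + 6) + 1
    nlinarith
  intro s hs
  set z0 := gridDec m (gridEnc (d := d) m 0)
  have hz0 : ‖z0 - s‖ ≤ 2 := by
    have h := grid_close (d := d) hmpos 0 s hs.le
    rw [zero_sub, norm_neg, hs] at h
    have : (d:ℝ) / m ≤ 1 := by
      rw [div_le_one hmR]
      refine le_trans ?_ hm1
      rw [le_div_iff₀ hε]
      have : (1:ℝ) ≤ T := by nlinarith
      nlinarith
    linarith
  have hdecay : (1 - 1 / (2 * (d:ℝ))) ^ T ≤ ε / 120 := by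
    have h1 : 1 - 1 / (2 * (d:ℝ)) ≤ Real.exp (-(1 / (2 * d))) := by
      have := Real.add_one_le_exp (-(1 / (2 * (d:ℝ)))); linarith
    have h0 : 0 ≤ 1 - 1 / (2 * (d:ℝ)) := by
      rw [sub_nonneg, div_le_one (by positivity)]; linarith
    refine (pow_le_pow_left₀ h0 h1 T).trans ?_
    rw [← Real.exp_nat_mul]
    calc Real.exp ((T:ℝ) * -(1 / (2 * d))) ≤ Real.exp (-(L + 6)) := by
          refine Real.exp_le_exp.2 ?_
          rw [mul_neg, neg_le_neg_iff, mul_one_div, le_div_iff₀ (by positivity)]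
          linarith
      _ = ε * Real.exp (-6) := by
          rw [neg_add, Real.exp_add, hL, one_div, Real.log_inv, neg_neg, Real.exp_log hε]
      _ ≤ ε * (1 / 120) := by
          refine mul_le_mul_of_nonneg_left ?_ hε.le
          rw [Real.exp_neg, one_div]
          refine inv_anti₀ (by norm_num) ?_
          have h : Real.exp 6 = Real.exp 1 ^ 6 := by rw [← Real.exp_nat_mul]; norm_num
          rw [h]
          have : (2.7:ℝ) ^ 6 ≤ Real.exp 1 ^ 6 :=
            pow_le_pow_left₀ (by norm_num) (by linarith [Real.exp_one_gt_d9]) 6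
          norm_num at this ⊢
          linarith
      _ = _ := by ring
  have hbound : ((1 - 1 / (2 * (d:ℝ))) ^ T * ‖z0 - s‖ + T * (d / m)) / (ε / 4) ≤ 1 / 3 := by
    rw [div_le_iff₀ (by positivity)]
    have h2 : (1 - 1 / (2 * (d:ℝ))) ^ T * ‖z0 - s‖ ≤ ε / 120 * 2 :=
      mul_le_mul hdecay hz0 (norm_nonneg _) (by positivity)
    have h3 : (T:ℝ) * (d / m) ≤ ε / 100 := by
      rw [← mul_div_assoc, div_le_iff₀ hmR]
      rw [div_le_iff₀ hε] at hm1
      nlinarith
    linarith
  have hstep : ∀ t q, Measurable fun p : EuclideanSpace ℝ (Fin d) × ℝ => gridStep d m t q p.1 p.2 :=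
    measurable_gridStep d m
  have hg := grid_value (d := d) hd1 hmpos (show 0 < ε / 4 by positivity) hs.le T 0
    (gridEquiv d m (gridEnc m 0))
  rw [Equiv.symm_apply_apply] at hg
  have hv := value_block (out := fun q => gridDec m ((gridEquiv d m).symm q)) (ε := ε / 4)
    hstep 0 T 0 (gridEquiv d m (gridEnc m 0)) s
  rw [Nat.zero_add T] at hv
  set S := {X : Fin T → EuclideanSpace ℝ (Fin d) |
    blockState (gridStep d m) T 0 (gridEquiv d m (gridEnc m 0)) X (labels X s)
      ∈ {q | ‖gridDec m ((gridEquiv d m).symm q) - s‖ ≤ ε / 4}}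
  have hS : MeasurableSet S :=
    measurableSet_preimage ((measurable_blockState hstep T 0 _).comp
      (f := fun X : Fin T → EuclideanSpace ℝ (Fin d) => (X, labels X s))
      (by unfold labels; fun_prop)) ((Set.to_countable _).measurableSet)
  have hval : value (gridStep d m) (fun q => gridDec m ((gridEquiv d m).symm q)) (ε / 4) T 0
      (gridEquiv d m (gridEnc m 0)) s
      = Measure.pi (fun _ : Fin T => stdGaussian (EuclideanSpace ℝ (Fin d))) S := by
    rw [hv, ← lintegral_indicator_one hS]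
    refine lintegral_congr fun X => ?_
    simp only [value, S, Set.indicator, mem_closedBall, dist_eq_norm, Set.mem_ofPred_eq,
      norm_sub_rev s, Pi.one_apply]
  rw [hval] at hg
  have hfin : (2:ℝ≥0∞) / 3 ≤ Measure.pi (fun _ : Fin T => stdGaussian (EuclideanSpace ℝ (Fin d))) S := by
    have h1 : (1:ℝ≥0∞) ≤
        Measure.pi (fun _ : Fin T => stdGaussian (EuclideanSpace ℝ (Fin d))) S
          + ENNReal.ofReal (1 / 3) := hg.trans (add_le_add le_rfl (ENNReal.ofReal_le_ofReal hbound))
    rw [← tsub_le_iff_right] at h1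
    refine le_trans (le_of_eq ?_) h1
    rw [← ENNReal.ofReal_one, ← ENNReal.ofReal_sub _ (by norm_num),
      show (1:ℝ) - 1 / 3 = 2 / 3 by norm_num, ENNReal.ofReal_div_of_pos (by norm_num)]
    norm_num
  refine hfin.trans (measure_mono fun X hX => ?_)
  simp only [S, Set.mem_ofPred_eq] at hX ⊢
  rw [finalState_grid]
  refine (arccos_le_of_norm (unitDir_norm hd1 _) hs).trans ?_
  have := unitDir_close hd1 (z := gridDec m ((gridEquiv d m).symm
    (blockState (gridStep d m) T 0 (gridEquiv d m (gridEnc m 0)) X (labels X s)))) hs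
  linarith

/-- too few states for the ball: no horizon works -/
lemma few_states {N T : ℕ} {ε : ℝ} (hd : 4 ≤ d) (hε : 0 < ε)
    (hN : (N:ℝ) * (4 ^ d * ε ^ (d - 1)) ≤ 1 / 2) {Ω : Type*} [MeasurableSpace Ω] (P : Measure Ω)
    [IsProbabilityMeasure P] (init : Ω → Fin N)
    (step : ℕ → Ω → Fin N → EuclideanSpace ℝ (Fin d) → ℝ → Fin N × Bool)
    (out : Ω → Fin N → EuclideanSpace ℝ (Fin d)) (hout : ∀ q, Measurable fun ω => out ω q) :
    P.prod ((uniformSphere d).prod
        (Measure.pi fun _ : Fin T => stdGaussian (EuclideanSpace ℝ (Fin d))))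
      {p | ‖out p.1 (finalState (fun t => step t p.1) (init p.1) p.2.1 p.2.2) - p.2.1‖ ≤ ε}
      ≤ ENNReal.ofReal (1 / 2) := by
  haveI := sphere_prob (d := d) (by omega)
  set V : Fin N → Set (Ω × EuclideanSpace ℝ (Fin d) × (Fin T → EuclideanSpace ℝ (Fin d))) :=
    fun q => {p | ‖out p.1 q - p.2.1‖ ≤ ε}
  have hV : ∀ q, MeasurableSet (V q) := fun q => by
    refine measurableSet_le ?_ measurable_const
    exact (((hout q).comp measurable_fst).sub (measurable_fst.comp measurable_snd)).norm
  have hbd : ∀ q, P.prod ((uniformSphere d).prod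
      (Measure.pi fun _ : Fin T => stdGaussian (EuclideanSpace ℝ (Fin d)))) (V q)
      ≤ ENNReal.ofReal (4 ^ d * ε ^ (d - 1)) := by
    intro q
    rw [Measure.prod_apply (hV q)]
    refine le_trans (lintegral_mono fun ω => ?_)
      (le_of_eq (show ∫⁻ _ω, ENNReal.ofReal (4 ^ d * ε ^ (d - 1)) ∂P = _ by simp))
    have e : Prod.mk ω ⁻¹' V q = closedBall (out ω q) ε ×ˢ Set.univ := by
      ext p
      simp only [Set.mem_preimage, V, Set.mem_ofPred_eq, Set.mem_prod, Set.mem_univ, and_true,
        mem_closedBall, dist_eq_norm, norm_sub_rev p.1]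
    rw [e, Measure.prod_prod, measure_univ, mul_one]
    exact sphere_cap hd _ ε hε
  calc _ ≤ P.prod ((uniformSphere d).prod
        (Measure.pi fun _ : Fin T => stdGaussian (EuclideanSpace ℝ (Fin d)))) (⋃ q, V q) :=
        measure_mono fun p hp => Set.mem_iUnion.2
          ⟨finalState (fun t => step t p.1) (init p.1) p.2.1 p.2.2, hp⟩
    _ ≤ ∑ q, ENNReal.ofReal (4 ^ d * ε ^ (d - 1)) :=
        (measure_iUnion_fintype_le _ _).trans (Finset.sum_le_sum fun q _ => hbd q)
    _ = ENNReal.ofReal (N * (4 ^ d * ε ^ (d - 1))) := by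
        rw [Finset.sum_const, Finset.card_univ, Fintype.card_fin, nsmul_eq_mul,
          ENNReal.ofReal_mul (Nat.cast_nonneg N), ENNReal.ofReal_natCast]
    _ ≤ _ := ENNReal.ofReal_le_ofReal hN

end Vale.Agent.P309
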